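import Vale.Agent.P262.H847.Reg2

/-!
# From `Good` functions on Euclidean space to all concave functions on `Fin k → ℝ`
-/

namespace Vale.Agent.P262.H847.Reg

open MeasureTheory Set Filter Topology ProbabilityTheory
open Vale.Agent.P262.Ehr (Phi phi gam Phi_pos Phi_lt_one Phi_continuous phi_pos phi_continuous)

lemma phi_eq' (s : ℝ) : phi s = (Real.sqrt (2 * Real.pi))⁻¹ * Real.exp (-(s ^ 2) / 2) := by
  simp [phi, gaussianPDFReal_def]

lemma sqrt_two_pi_inv_le : (Real.sqrt (2 * Real.pi))⁻¹ ≤ 1 := by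
  have h1 : (1 : ℝ) ≤ 2 * Real.pi := by linarith [Real.pi_gt_three]
  exact inv_le_one_of_one_le₀ (Real.one_le_sqrt.mpr h1)

lemma phi_le_one' (s : ℝ) : phi s ≤ 1 := by
  rw [phi_eq']
  have h1 := sqrt_two_pi_inv_le
  have h2 : Real.exp (-(s ^ 2) / 2) ≤ 1 := Real.exp_le_one_iff.mpr (by nlinarith [sq_nonneg s])
  have h3 : 0 ≤ (Real.sqrt (2 * Real.pi))⁻¹ := by positivity
  nlinarith [Real.exp_pos (-(s ^ 2) / 2)]

lemma abs_mul_phi_le (s : ℝ) : |s * phi s| ≤ 1 := by
  rw [phi_eq', abs_mul, abs_of_pos (by positivity : 0 < (Real.sqrt (2 * Real.pi))⁻¹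
    * Real.exp (-(s ^ 2) / 2))]
  have h1 := sqrt_two_pi_inv_le
  have h2 : |s| ≤ Real.exp (s ^ 2 / 2) := by
    have := Real.add_one_le_exp (s ^ 2 / 2)
    nlinarith [sq_nonneg (|s| - 1), sq_abs s]
  have h3 : |s| * Real.exp (-(s ^ 2) / 2) ≤ 1 := by
    rw [neg_div, Real.exp_neg]
    rw [mul_inv_le_iff₀ (Real.exp_pos _), one_mul]
    exact h2
  calc |s| * ((Real.sqrt (2 * Real.pi))⁻¹ * Real.exp (-(s ^ 2) / 2))
      = (Real.sqrt (2 * Real.pi))⁻¹ * (|s| * Real.exp (-(s ^ 2) / 2)) := by ring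
    _ ≤ 1 * 1 := by
        refine mul_le_mul h1 h3 (by positivity) zero_le_one
    _ = 1 := one_mul 1

/-- The Gaussian inequality (S'), in diagonal form, for one function. -/
def SIneq {E : Type} [MeasurableSpace E] (μ : Measure E) {k : ℕ} (X : E → Fin k → ℝ)
    (w : E → ℝ) (al : Fin k → ℝ) (c : ℝ) : Prop :=
  2 * ∫ z, √(∑ i, (al i * X z i) ^ 2) * phi (w z) ∂μ
    ≤ ∫ z, w z * phi (w z) ∂μ + ∫ z, Phi (w z) * (∑ i, al i ^ 2 - ∑ i, (al i * X z i) ^ 2) ∂μ
      + 2 * c * ∫ z, phi (w z) ∂μ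

/-- **Regularisation of (S')**: it suffices to prove it for `Good` functions on Euclidean space. -/
theorem shyp_of_good {k : ℕ} {K : ℝ}
    (H : ∀ w : EuclideanSpace ℝ (Fin k) → ℝ, Good w →
      1 / 2 ≤ ∫ x, Phi (w x) ∂(stdGaussian (EuclideanSpace ℝ (Fin k))) →
      ∀ (al : Fin k → ℝ) (c : ℝ), 0 < c → c ≤ 1 → ∑ i, al i ^ 2 ≤ K * c ^ 3 →
        SIneq (stdGaussian (EuclideanSpace ℝ (Fin k))) (fun x => x.ofLp) w al c)
    (w : (Fin k → ℝ) → ℝ) (hw : ConcaveOn ℝ univ w) (h2 : 1 / 2 ≤ ∫ z, Phi (w z) ∂(gam k))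
    (al : Fin k → ℝ) (c : ℝ) (c0 : 0 < c) (c1 : c ≤ 1) (hK : ∑ i, al i ^ 2 ≤ K * c ^ 3) :
    SIneq (gam k) (fun z => z) w al c := by
  set μ := stdGaussian (EuclideanSpace ℝ (Fin k)) with hμ
  set W : EuclideanSpace ℝ (Fin k) → ℝ := fun x => w x.ofLp with hW
  have hWc : ConcaveOn ℝ univ W := by
    refine ⟨convex_univ, fun x _ y _ a b ha hb hab => ?_⟩
    exact hw.2 (mem_univ x.ofLp) (mem_univ y.ofLp) ha hb hab
  have tr : ∀ f : (Fin k → ℝ) → ℝ, ∫ x, f x.ofLp ∂μ = ∫ z, f z ∂(gam k) := by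
    intro f
    rw [hμ, ← map_pi_eq_stdGaussian]
    have e : (MeasurableEquiv.toLp 2 (Fin k → ℝ) : (Fin k → ℝ) → EuclideanSpace ℝ (Fin k))
        = WithLp.toLp 2 := rfl
    rw [← e, integral_map_equiv]
    rfl
  set A : ℝ := ∑ i, al i ^ 2 with hA
  set Q : EuclideanSpace ℝ (Fin k) → ℝ := fun x => ∑ i, (al i * x.ofLp i) ^ 2 with hQ
  have hA0 : 0 ≤ A := Finset.sum_nonneg fun i _ => sq_nonneg _
  have hQ0 : ∀ x, 0 ≤ Q x := fun x => Finset.sum_nonneg fun i _ => sq_nonneg _
  have hQle : ∀ x, Q x ≤ A * ‖x‖ ^ 2 := by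
    intro x
    rw [hA, Finset.sum_mul]
    refine Finset.sum_le_sum fun i _ => ?_
    rw [mul_pow]
    refine mul_le_mul_of_nonneg_left ?_ (sq_nonneg _)
    rw [EuclideanSpace.norm_sq_eq]
    have := Finset.single_le_sum (f := fun j => ‖x.ofLp j‖ ^ 2) (fun j _ => sq_nonneg _)
      (Finset.mem_univ i)
    simpa using this
  have hQc : Continuous Q := by
    refine continuous_finsetSum _ fun i _ => ?_
    exact (continuous_const.mul ((continuous_apply i).comp (PiLp.continuous_ofLp 2 _))).pow 2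
  have hsqrt : ∀ x, √(Q x) ≤ 1 + Q x := by
    intro x
    have := Real.sqrt_le_sqrt (show Q x ≤ (1 + Q x) ^ 2 by nlinarith [hQ0 x])
    rwa [Real.sqrt_sq (by linarith [hQ0 x])] at this
  have hnorm : Integrable (fun x : EuclideanSpace ℝ (Fin k) => ‖x‖ ^ 2) μ :=
    (IsGaussian.memLp_two_id (μ := μ)).norm.integrable_sq
  have hQi : Integrable Q μ := by
    refine (hnorm.const_mul A).mono' hQc.aestronglyMeasurable (Eventually.of_forall fun x => ?_)
    rw [Real.norm_eq_abs, abs_of_nonneg (hQ0 x)]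
    exact hQle x
  set F : EuclideanSpace ℝ (Fin k) → ℝ → ℝ := fun x s =>
    s * phi s + Phi s * (A - Q x) + 2 * c * phi s - 2 * (√(Q x) * phi s) with hF
  have key : ∀ v : EuclideanSpace ℝ (Fin k) → ℝ, Continuous v →
      (∫ x, F x (v x) ∂μ = (∫ z, v z * phi (v z) ∂μ + ∫ z, Phi (v z) * (A - Q z) ∂μ
      + 2 * c * ∫ z, phi (v z) ∂μ) - 2 * ∫ z, √(Q z) * phi (v z) ∂μ) := by
    intro v hv
    have i1 : Integrable (fun z => v z * phi (v z)) μ := by
      refine (integrable_const (1 : ℝ)).mono' (hv.mul (phi_continuous.comp hv)).aestronglyMeasurable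
        (Eventually.of_forall fun x => ?_)
      exact abs_mul_phi_le _
    have i2 : Integrable (fun z => Phi (v z) * (A - Q z)) μ := by
      refine ((integrable_const A).add hQi).mono' ((Phi_continuous.comp hv).mul
        (continuous_const.sub hQc)).aestronglyMeasurable (Eventually.of_forall fun x => ?_)
      rw [Real.norm_eq_abs, abs_mul, abs_of_pos (Phi_pos _)]
      have h1 := (Phi_lt_one (v x)).le
      have h2 : |A - Q x| ≤ A + Q x := by
        rw [abs_le]; constructor <;> linarith [hQ0 x]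
      calc Phi (v x) * |A - Q x| ≤ 1 * (A + Q x) :=
            mul_le_mul h1 h2 (abs_nonneg _) zero_le_one
        _ = A + Q x := one_mul _
    have i3 : Integrable (fun z => phi (v z)) μ := by
      refine (integrable_const (1 : ℝ)).mono' (phi_continuous.comp hv).aestronglyMeasurable
        (Eventually.of_forall fun x => ?_)
      rw [Real.norm_eq_abs, abs_of_pos (phi_pos _)]
      exact phi_le_one' _
    have i4 : Integrable (fun z => √(Q z) * phi (v z)) μ := by
      refine ((integrable_const (1 : ℝ)).add hQi).mono' ((Real.continuous_sqrt.comp hQc).mul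
        (phi_continuous.comp hv)).aestronglyMeasurable (Eventually.of_forall fun x => ?_)
      rw [Real.norm_eq_abs, abs_mul, abs_of_pos (phi_pos _), abs_of_nonneg (Real.sqrt_nonneg _)]
      calc √(Q x) * phi (v x) ≤ (1 + Q x) * 1 :=
            mul_le_mul (hsqrt x) (phi_le_one' _) (phi_pos _).le (by linarith [hQ0 x])
        _ = 1 + Q x := mul_one _
    have e1 : ∫ x, F x (v x) ∂μ = ∫ x, (v x * phi (v x) + Phi (v x) * (A - Q x)
        + 2 * c * phi (v x)) ∂μ - ∫ x, 2 * (√(Q x) * phi (v x)) ∂μ :=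
      integral_sub ((i1.add i2).add (i3.const_mul _)) (i4.const_mul _)
    rw [e1, integral_const_mul]
    congr 1
    have e2 : ∫ x, (v x * phi (v x) + Phi (v x) * (A - Q x) + 2 * c * phi (v x)) ∂μ
        = ∫ x, (v x * phi (v x) + Phi (v x) * (A - Q x)) ∂μ + ∫ x, 2 * c * phi (v x) ∂μ :=
      integral_add (i1.add i2) (i3.const_mul _)
    rw [e2, integral_const_mul]
    congr 1
    exact integral_add i1 i2
  have hWcont : Continuous W := by
    have := hWc.continuousOn_interior
    rwa [interior_univ, continuousOn_univ] at this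
  have main : 0 ≤ ∫ x, F x (W x) ∂μ := by
    refine regularise2 (G := fun x => (1 + 2 * c + 2 + A) + 3 * Q x)
      ((integrable_const _).add (hQi.const_mul 3)) ?_ ?_ ?_ ?_ hWc ?_
    · intro x
      have h1 := phi_continuous
      have h2 := Phi_continuous
      show Continuous fun s => s * phi s + Phi s * (A - Q x) + 2 * c * phi s
        - 2 * (√(Q x) * phi s)
      fun_prop
    · intro x s
      have h1 := abs_mul_phi_le s
      have h2 := hQ0 x
      have h3 := hsqrt x
      have h4 := phi_le_one' s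
      have h5 := phi_pos s
      have h6 := Phi_pos s
      have h7 := (Phi_lt_one s).le
      have h8 : |Phi s * (A - Q x)| ≤ A + Q x := by
        rw [abs_mul, abs_of_pos h6]
        have h2 : |A - Q x| ≤ A + Q x := by
          rw [abs_le]; constructor <;> linarith [hQ0 x]
        calc Phi s * |A - Q x| ≤ 1 * (A + Q x) := mul_le_mul h7 h2 (abs_nonneg _) zero_le_one
          _ = A + Q x := one_mul _
      have h9 : |2 * c * phi s| ≤ 2 * c := by
        rw [abs_of_nonneg (by positivity)]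
        nlinarith
      have h10 : |2 * (√(Q x) * phi s)| ≤ 2 + 2 * Q x := by
        rw [abs_of_nonneg (by positivity)]
        have : √(Q x) * phi s ≤ (1 + Q x) * 1 := mul_le_mul h3 h4 h5.le (by linarith)
        linarith
      show |s * phi s + Phi s * (A - Q x) + 2 * c * phi s - 2 * (√(Q x) * phi s)|
        ≤ (1 + 2 * c + 2 + A) + 3 * Q x
      rw [abs_le] at *
      constructor <;> linarith
    · intro v hv
      have h1 := phi_continuous.comp hv
      have h2 := Phi_continuous.comp hv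
      have h3 : Continuous fun x => F x (v x) :=
        (((hv.mul h1).add (h2.mul (continuous_const.sub hQc))).add (continuous_const.mul h1)).sub
          (continuous_const.mul ((Real.continuous_sqrt.comp hQc).mul h1))
      exact h3.aestronglyMeasurable
    · intro v hv hv2
      have h1 := H v hv hv2 al c c0 c1 hK
      have h2 := key v hv.smooth.continuous
      rw [h2]
      unfold SIneq at h1
      linarith
    · have := tr fun z => Phi (w z)
      rw [hW, this]
      exact h2
  rw [key W hWcont] at main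
  unfold SIneq
  have e1 := tr fun z => w z * phi (w z)
  have e2 := tr fun z => Phi (w z) * (A - ∑ i, (al i * z i) ^ 2)
  have e3 := tr fun z => phi (w z)
  have e4 := tr fun z => √(∑ i, (al i * z i) ^ 2) * phi (w z)
  rw [← e1, ← e2, ← e3, ← e4]
  simp only [hW, hQ] at main
  linarith

end Vale.Agent.P262.H847.Reg
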