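import Vale.Agent.P262.H847.Line

/-!
# Ehrhard's inequality for Gaussian measures in all (finite) dimensions
-/

namespace Vale.Agent.P262.H847

open MeasureTheory ProbabilityTheory Set Filter Topology

/-- measurable with values in `[0,1]` -/
structure UI {E : Type*} [MeasurableSpace E] (f : E → ℝ) : Prop where
  meas : Measurable f
  nonneg : ∀ x, 0 ≤ f x
  le_one : ∀ x, f x ≤ 1

lemma UI.integrable {E : Type*} [MeasurableSpace E] {f : E → ℝ} (hf : UI f) (μ : Measure E)
    [IsFiniteMeasure μ] : Integrable f μ :=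
  Integrable.of_bound hf.meas.aestronglyMeasurable 1
    (Eventually.of_forall (fun z => by
      rw [Real.norm_eq_abs, abs_of_nonneg (hf.nonneg _)]; exact hf.le_one _))

lemma UI.integral {E F : Type*} [MeasurableSpace E] [MeasurableSpace F] {f : E × F → ℝ}
    (hf : UI f) (ν : Measure F) [IsProbabilityMeasure ν] : UI (fun x => ∫ y, f (x, y) ∂ν) := by
  have hi : ∀ x, Integrable (fun y => f (x, y)) ν := fun x =>
    Integrable.of_bound (hf.meas.comp (by fun_prop)).aestronglyMeasurable 1
      (Eventually.of_forall (fun z => by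
        rw [Real.norm_eq_abs, abs_of_nonneg (hf.nonneg _)]; exact hf.le_one _))
  refine ⟨?_, fun x => integral_nonneg (fun y => hf.nonneg _), fun x => ?_⟩
  · exact (StronglyMeasurable.integral_prod_right (f := fun x y => f (x, y))
      hf.meas.stronglyMeasurable).measurable
  · calc ∫ y, f (x, y) ∂ν ≤ ∫ _y, (1:ℝ) ∂ν :=
        integral_mono (hi x) (integrable_const _) (fun y => hf.le_one _)
      _ = 1 := by simp

/-- The functional form of Ehrhard's inequality for the measure `μ`. -/
def Ehr {E : Type*} [AddCommGroup E] [Module ℝ E] [MeasurableSpace E] (μ : Measure E) : Prop :=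
  ∀ a b : ℝ, 0 < a → 0 < b → a + b = 1 → ∀ f g h : E → ℝ, UI f → UI g → UI h →
    (∀ x y s t, Phi s ≤ f x → Phi t ≤ g y → Phi (a * s + b * t) ≤ h (a • x + b • y)) →
    ∀ s t, Phi s ≤ ∫ x, f x ∂μ → Phi t ≤ ∫ x, g x ∂μ → Phi (a * s + b * t) ≤ ∫ x, h x ∂μ

theorem Ehr.line : Ehr g1 := by
  intro a b ha hb hab f g h hf hg hh H s t hs ht
  exact ehrhard_line ha hb hab hf.meas hg.meas hh.meas hf.nonneg hf.le_one hg.nonneg hg.le_one
    hh.nonneg hh.le_one H hs ht

section

variable {E F : Type*} [AddCommGroup E] [Module ℝ E] [MeasurableSpace E]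
  [AddCommGroup F] [Module ℝ F] [MeasurableSpace F]

/-- images under affine maps -/
theorem Ehr.map {μ : Measure E} (hμ : Ehr μ) {T : E → F} (hT : Measurable T)
    (hlin : ∀ a b : ℝ, a + b = 1 → ∀ x y, T (a • x + b • y) = a • T x + b • T y) :
    Ehr (μ.map T) := by
  intro a b ha hb hab f g h hf hg hh H s t hs ht
  rw [integral_map hT.aemeasurable hf.meas.aestronglyMeasurable] at hs
  rw [integral_map hT.aemeasurable hg.meas.aestronglyMeasurable] at ht
  rw [integral_map hT.aemeasurable hh.meas.aestronglyMeasurable]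
  refine hμ a b ha hb hab (fun x => f (T x)) (fun x => g (T x)) (fun x => h (T x))
    ⟨hf.meas.comp hT, fun x => hf.nonneg _, fun x => hf.le_one _⟩
    ⟨hg.meas.comp hT, fun x => hg.nonneg _, fun x => hg.le_one _⟩
    ⟨hh.meas.comp hT, fun x => hh.nonneg _, fun x => hh.le_one _⟩ ?_ s t hs ht
  intro x y s t hs ht
  show Phi (a * s + b * t) ≤ h (T (a • x + b • y))
  rw [hlin a b hab]
  exact H _ _ s t hs ht

/-- products -/
theorem Ehr.prod {μ : Measure E} {ν : Measure F} [IsProbabilityMeasure μ] [IsProbabilityMeasure ν]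
    (hμ : Ehr μ) (hν : Ehr ν) : Ehr (μ.prod ν) := by
  intro a b ha hb hab f g h hf hg hh H s t hs ht
  rw [integral_prod _ (hf.integrable _)] at hs
  rw [integral_prod _ (hg.integrable _)] at ht
  rw [integral_prod _ (hh.integrable _)]
  refine hμ a b ha hb hab _ _ _ (hf.integral ν) (hg.integral ν) (hh.integral ν) ?_ s t hs ht
  intro x y s t hs ht
  have sec : ∀ {r : E × F → ℝ}, UI r → ∀ x, UI (fun y => r (x, y)) := fun hr x =>
    ⟨hr.meas.comp (by fun_prop), fun y => hr.nonneg _, fun y => hr.le_one _⟩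
  refine hν a b ha hb hab _ _ _ (sec hf x) (sec hg y) (sec hh (a • x + b • y)) ?_ s t hs ht
  intro x' y' s t hs ht
  exact H (x, x') (y, y') s t hs ht

theorem Ehr.dirac (x₀ : E) : Ehr (Measure.dirac x₀) := by
  intro a b ha hb hab f g h hf hg hh H s t hs ht
  rw [integral_dirac' _ _ hf.meas.stronglyMeasurable] at hs
  rw [integral_dirac' _ _ hg.meas.stronglyMeasurable] at ht
  rw [integral_dirac' _ _ hh.meas.stronglyMeasurable]
  have := H x₀ x₀ s t hs ht
  rwa [← add_smul, hab, one_smul] at this

end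

/-- the standard Gaussian measure on `Fin n → ℝ` -/
noncomputable abbrev gn (n : ℕ) : Measure (Fin n → ℝ) := Measure.pi (fun _ => g1)

theorem Ehr.fin (n : ℕ) : Ehr (gn n) := by
  induction n with
  | zero =>
    have : gn 0 = Measure.dirac (fun i => 0) := by
      rw [gn, Measure.pi_of_empty]
      congr 1
      funext i; exact i.elim0
    rw [this]
    exact Ehr.dirac _
  | succ n ih =>
    have h1 := (measurePreserving_piFinSuccAbove (fun _ : Fin (n + 1) => g1) 0).symm
    have h2 := (Ehr.line.prod ih).map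
      (T := (MeasurableEquiv.piFinSuccAbove (fun _ : Fin (n + 1) => ℝ) 0).symm)
      (MeasurableEquiv.measurable _) ?_
    · rw [h1.map_eq] at h2
      exact h2
    · intro a b _ x y
      funext i
      refine Fin.cases ?_ (fun j => ?_) i <;> simp [MeasurableEquiv.piFinSuccAbove]

end Vale.Agent.P262.H847
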