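import Mathlib

/-!
# Mollification of Lipschitz concave functions: all derivatives are bounded
-/

namespace Vale.Agent.P262.H847.Reg

open MeasureTheory Set Filter Topology
open scoped ContDiff Convolution

variable {E : Type} [NormedAddCommGroup E] [InnerProductSpace ℝ E] [FiniteDimensional ℝ E]
  [MeasurableSpace E] [BorelSpace E]

/-- All derivatives of `f ⋆ g` are bounded if `f` is a test function and `g` is bounded. -/
lemma conv_bound (j : ℕ) : ∀ {G G' : Type} [NormedAddCommGroup G] [NormedSpace ℝ G]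
    [NormedAddCommGroup G'] [NormedSpace ℝ G'] (L : G →L[ℝ] ℝ →L[ℝ] G') {f : E → G}
    (_ : ContDiff ℝ ∞ f) (_ : HasCompactSupport f), ∃ C : ℝ, 0 ≤ C ∧ ∀ (g : E → ℝ) (M : ℝ),
      Continuous g → (∀ x, |g x| ≤ M) →
        ∀ x, ‖iteratedFDeriv ℝ j (f ⋆[L, (volume : Measure E)] g) x‖ ≤ C * M := by
  induction j with
  | zero =>
    intro G G' _ _ _ _ L f hf hc
    have hfi : Integrable (fun t => ‖f t‖) (volume : Measure E) :=
      (hf.continuous.integrable_of_hasCompactSupport hc).norm
    refine ⟨‖L‖ * ∫ t, ‖f t‖, by positivity, fun g M hg hM x => ?_⟩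
    rw [norm_iteratedFDeriv_zero]
    have h1 : ∀ t, ‖L (f t) (g (x - t))‖ ≤ (‖L‖ * M) * ‖f t‖ := by
      intro t
      calc ‖L (f t) (g (x - t))‖ ≤ ‖L‖ * ‖f t‖ * ‖g (x - t)‖ := L.le_opNorm₂ _ _
        _ ≤ ‖L‖ * ‖f t‖ * M := by
            refine mul_le_mul_of_nonneg_left ?_ (by positivity)
            rw [Real.norm_eq_abs]; exact hM _
        _ = (‖L‖ * M) * ‖f t‖ := by ring
    calc ‖(f ⋆[L, (volume : Measure E)] g) x‖ ≤ ∫ t, (‖L‖ * M) * ‖f t‖ := by
          rw [convolution_def]
          exact norm_integral_le_of_norm_le (hfi.const_mul _) (Eventually.of_forall h1)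
      _ = ‖L‖ * (∫ t, ‖f t‖) * M := by rw [integral_const_mul]; ring
  | succ j ih =>
    intro G G' _ _ _ _ L f hf hc
    have hf' : ContDiff ℝ ∞ (fderiv ℝ f) := hf.fderiv_right (by norm_num)
    obtain ⟨C, hC, h⟩ := ih (L.precompL E) hf' (hc.fderiv ℝ)
    refine ⟨C, hC, fun g M hg hM x => ?_⟩
    rw [← norm_iteratedFDeriv_fderiv]
    have e : fderiv ℝ (f ⋆[L, (volume : Measure E)] g)
        = (fderiv ℝ f) ⋆[L.precompL E, (volume : Measure E)] g := by
      funext y
      exact (hc.hasFDerivAt_convolution_left L (hf.of_le (by simp)) hg.locallyIntegrable y).fderiv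
    rw [e]
    exact h g M hg hM x

/-- The mollification of a function. -/
noncomputable def mol (ρ : E → ℝ) (g : E → ℝ) : E → ℝ :=
  ρ ⋆[ContinuousLinearMap.lsmul ℝ ℝ, (volume : Measure E)] g

lemma mol_apply (ρ g : E → ℝ) (x : E) : mol ρ g x = ∫ t, ρ t * g (x - t) := rfl

lemma mol_contDiff {ρ g : E → ℝ} (hρ : ContDiff ℝ ∞ ρ) (hc : HasCompactSupport ρ)
    (hg : Continuous g) : ContDiff ℝ ∞ (mol ρ g) :=
  hc.contDiff_convolution_left _ hρ hg.locallyIntegrable

lemma mol_int {ρ g : E → ℝ} (hρ : Continuous ρ) (hc : HasCompactSupport ρ)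
    (hg : Continuous g) (x : E) : Integrable (fun t => ρ t * g (x - t)) :=
  (hρ.mul (hg.comp (continuous_const.sub continuous_id))).integrable_of_hasCompactSupport
    hc.mul_right

/-- All derivatives (of order `≥ 1`) of the mollification of a Lipschitz function are bounded. -/
lemma mol_bound {ρ g : E → ℝ} (hρ : ContDiff ℝ ∞ ρ) (hc : HasCompactSupport ρ)
    {K : ℝ} (hK : ∀ x y, |g x - g y| ≤ K * ‖x - y‖) (hg : Continuous g) (j : ℕ) :
    ∃ C : ℝ, ∀ x, ‖iteratedFDeriv ℝ (j + 1) (mol ρ g) x‖ ≤ C := by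
  obtain ⟨C, hC, h⟩ := conv_bound j (ContinuousLinearMap.lsmul ℝ ℝ) hρ hc
  refine ⟨max (C * K) 0, fun x => ?_⟩
  have hs := mol_contDiff hρ hc hg
  have key : ∀ x y, ‖iteratedFDeriv ℝ j (mol ρ g) x - iteratedFDeriv ℝ j (mol ρ g) y‖
      ≤ (C * K) * ‖x - y‖ := by
    intro x y
    set a := x - y with ha
    have hx : x = y + a := by rw [ha]; abel
    set g' : E → ℝ := fun z => g (z + a) - g z with hg'
    have hcg' : Continuous g' := (hg.comp (continuous_id.add continuous_const)).sub hg
    have e1 : mol ρ g' = (fun z => mol ρ g (z + a)) - mol ρ g := by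
      funext z
      simp only [Pi.sub_apply, mol_apply]
      rw [← integral_sub (mol_int hρ.continuous hc hg _) (mol_int hρ.continuous hc hg _)]
      refine integral_congr_ae (Eventually.of_forall fun t => ?_)
      show ρ t * (g (z - t + a) - g (z - t)) = _
      rw [show z - t + a = z + a - t by abel]
      ring
    have e2 := h g' (K * ‖a‖) hcg' (fun z => by
      have := hK (z + a) z
      rwa [add_sub_cancel_left] at this) y
    have e3 : iteratedFDeriv ℝ j (mol ρ g') y
        = iteratedFDeriv ℝ j (mol ρ g) x - iteratedFDeriv ℝ j (mol ρ g) y := by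
      rw [e1, iteratedFDeriv_sub_apply]
      · rw [iteratedFDeriv_comp_add_right, hx]
      · have : ContDiff ℝ ∞ (fun z => mol ρ g (z + a)) :=
          hs.comp (contDiff_id.add contDiff_const)
        exact (this.of_le (by exact_mod_cast le_top)).contDiffAt
      · exact (hs.of_le (by exact_mod_cast le_top)).contDiffAt
    rw [← e3]
    calc _ ≤ C * (K * ‖a‖) := e2
      _ = C * K * ‖a‖ := by ring
  rw [← norm_fderiv_iteratedFDeriv]
  have hl : LipschitzWith (Real.toNNReal (C * K)) (iteratedFDeriv ℝ j (mol ρ g)) := by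
    refine LipschitzWith.of_dist_le_mul fun x y => ?_
    rw [dist_eq_norm, dist_eq_norm, Real.coe_toNNReal']
    exact (key x y).trans (mul_le_mul_of_nonneg_right (le_max_left _ _) (norm_nonneg _))
  have := norm_fderiv_le_of_lipschitz ℝ hl (x₀ := x)
  rwa [Real.coe_toNNReal'] at this

lemma mol_concave {ρ g : E → ℝ} (hρ : Continuous ρ) (hc : HasCompactSupport ρ)
    (h0 : ∀ x, 0 ≤ ρ x) (hg : Continuous g) (hcv : ConcaveOn ℝ univ g) :
    ConcaveOn ℝ univ (mol ρ g) := by
  refine ⟨convex_univ, fun x _ y _ a b ha hb hab => ?_⟩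
  simp only [mol_apply, smul_eq_mul]
  rw [← integral_const_mul, ← integral_const_mul,
    ← integral_add ((mol_int hρ hc hg _).const_mul _) ((mol_int hρ hc hg _).const_mul _)]
  refine integral_mono (((mol_int hρ hc hg _).const_mul _).add
    ((mol_int hρ hc hg _).const_mul _)) (mol_int hρ hc hg _) fun t => ?_
  have := hcv.2 (mem_univ (x - t)) (mem_univ (y - t)) ha hb hab
  rw [smul_eq_mul, smul_eq_mul] at this
  have e : a • (x - t) + b • (y - t) = a • x + b • y - t := by
    calc a • (x - t) + b • (y - t) = a • x + b • y - (a + b) • t := by module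
      _ = _ := by rw [hab, one_smul]
  rw [e] at this
  show a * (ρ t * g (x - t)) + b * (ρ t * g (y - t)) ≤ ρ t * g (a • x + b • y - t)
  calc _ = ρ t * (a * g (x - t) + b * g (y - t)) := by ring
    _ ≤ _ := mul_le_mul_of_nonneg_left this (h0 t)

end Vale.Agent.P262.H847.Reg
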