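import Vale.Agent.P262.H847.Ehrhard

/-!
# Corollaries of Ehrhard's inequality
-/

set_option linter.unusedSectionVars false

namespace Vale.Agent.P262.H847

open MeasureTheory ProbabilityTheory Set Filter Topology

/-! ### More Gaussian measures -/

theorem Ehr.pi (ι : Type*) [Fintype ι] : Ehr (Measure.pi (fun _ : ι => g1)) := by
  classical
  let e := (Fintype.equivFin ι).symm
  have h1 := measurePreserving_piCongrLeft (fun _ : ι => g1) e
  have h2 := (Ehr.fin (Fintype.card ι)).map (T := MeasurableEquiv.piCongrLeft (fun _ : ι => ℝ) e)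
    (MeasurableEquiv.measurable _) ?_
  · rw [h1.map_eq] at h2
    exact h2
  · intro a b _ x y
    funext i
    obtain ⟨j, rfl⟩ := e.surjective i
    simp [MeasurableEquiv.piCongrLeft, Equiv.piCongrLeft_apply_apply]

theorem Ehr.stdGaussian_euclidean (ι : Type*) [Fintype ι] :
    Ehr (stdGaussian (EuclideanSpace ℝ ι)) := by
  rw [← map_pi_eq_stdGaussian]
  refine (Ehr.pi ι).map (by fun_prop) ?_
  intro a b _ x y
  rfl

theorem Ehr.stdGaussian (E : Type*) [NormedAddCommGroup E] [InnerProductSpace ℝ E]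
    [FiniteDimensional ℝ E] [MeasurableSpace E] [BorelSpace E] : Ehr (stdGaussian E) := by
  rw [stdGaussian_eq_map_pi_orthonormalBasis (stdOrthonormalBasis ℝ E)]
  refine (Ehr.pi _).map (by fun_prop) ?_
  intro a b _ x y
  simp only [Pi.add_apply, Pi.smul_apply, smul_eq_mul, add_smul, Finset.sum_add_distrib,
    mul_smul, Finset.smul_sum]

theorem Ehr.multivariateGaussian {ι : Type*} [Fintype ι] [DecidableEq ι]
    (m : EuclideanSpace ℝ ι) (S : Matrix ι ι ℝ) : Ehr (multivariateGaussian m S) := by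
  refine (Ehr.stdGaussian_euclidean ι).map (by fun_prop) ?_
  intro a b hab x y
  have : m = a • m + b • m := by rw [← add_smul, hab, one_smul]
  conv_lhs => rw [this]
  rw [map_add, map_smul, map_smul, smul_add, smul_add]
  abel

theorem Ehr.gaussianReal (m : ℝ) (v : NNReal) : Ehr (gaussianReal m v) := by
  have h : ProbabilityTheory.gaussianReal m v = g1.map (fun x => Real.sqrt v * x + m) := by
    have h1 : g1.map (fun x => Real.sqrt v * x) = ProbabilityTheory.gaussianReal 0 v := by
      rw [gaussianReal_map_const_mul]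
      congr 1
      · simp
      · ext; simp
    have h2 : g1.map (fun x => Real.sqrt v * x + m)
        = (g1.map (fun x => Real.sqrt v * x)).map (fun x => x + m) := by
      rw [Measure.map_map (by fun_prop) (by fun_prop)]
      rfl
    rw [h2, h1, gaussianReal_map_add_const]
    simp
  rw [h]
  refine Ehr.line.map (by fun_prop) ?_
  intro a b hab x y
  have : m = a * m + b * m := by rw [← add_mul, hab, one_mul]
  simp only [smul_eq_mul]
  linear_combination (1:ℝ) * this

/-! ### Sets -/

section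

variable {E F : Type*} [AddCommGroup E] [Module ℝ E] [MeasurableSpace E]
  [AddCommGroup F] [Module ℝ F] [MeasurableSpace F]

lemma UI.indicator {A : Set E} (hA : MeasurableSet A) : UI (A.indicator (fun _ => (1:ℝ))) :=
  ⟨measurable_const.indicator hA, fun x => indicator_nonneg (fun _ _ => zero_le_one) x,
    fun x => indicator_le_self' (fun _ _ => zero_le_one) x⟩

lemma integral_ind {A : Set E} (hA : MeasurableSet A) (μ : Measure E) :
    ∫ x, A.indicator (fun _ => (1:ℝ)) x ∂μ = μ.real A := by
  rw [integral_indicator hA]; simp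

lemma Phi_le_ind {A : Set E} {x : E} {s : ℝ} (h : Phi s ≤ A.indicator (fun _ => (1:ℝ)) x) :
    x ∈ A := by
  by_contra hx
  rw [indicator_of_notMem hx] at h
  exact absurd h (not_le.mpr (Phi_pos s))

/-- **Ehrhard's inequality for sets.** -/
theorem Ehr.sets {μ : Measure E} (hμ : Ehr μ) {a b : ℝ} (ha : 0 < a) (hb : 0 < b)
    (hab : a + b = 1) {A B C : Set E} (hA : MeasurableSet A) (hB : MeasurableSet B)
    (hC : MeasurableSet C) (H : ∀ x ∈ A, ∀ y ∈ B, a • x + b • y ∈ C) {s t : ℝ}
    (hs : Phi s ≤ μ.real A) (ht : Phi t ≤ μ.real B) : Phi (a * s + b * t) ≤ μ.real C := by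
  have h := hμ a b ha hb hab _ _ _ (UI.indicator hA) (UI.indicator hB) (UI.indicator hC) ?_ s t
    (by rw [integral_ind hA]; exact hs) (by rw [integral_ind hB]; exact ht)
  · rw [integral_ind hC] at h; exact h
  · intro x y s t hs ht
    rw [indicator_of_mem (H x (Phi_le_ind hs) y (Phi_le_ind ht))]
    exact Phi_le_one _

/-! ### `Phi`-concave functions -/

/-- `f` is `Phi`-concave: `Phi⁻¹ ∘ f` is concave (with values in `[-∞,∞]`). -/
def PhiConc (f : E → ℝ) : Prop :=
  ∀ a b : ℝ, 0 < a → 0 < b → a + b = 1 → ∀ x y s t, Phi s ≤ f x → Phi t ≤ f y →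
    Phi (a * s + b * t) ≤ f (a • x + b • y)

lemma PhiConc.of_convex {K : Set E} (hK : Convex ℝ K) :
    PhiConc (K.indicator (fun _ => (1:ℝ))) := by
  intro a b ha hb hab x y s t hs ht
  rw [indicator_of_mem (hK (Phi_le_ind hs) (Phi_le_ind ht) ha.le hb.le hab)]
  exact Phi_le_one _

lemma PhiConc.of_concave {u : E → ℝ} (hu : ConcaveOn ℝ univ u) : PhiConc (fun x => Phi (u x)) := by
  intro a b ha hb hab x y s t hs ht
  have h1 := strictMono_Phi.le_iff_le.mp hs
  have h2 := strictMono_Phi.le_iff_le.mp ht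
  apply strictMono_Phi.monotone
  have h3 := hu.2 (mem_univ x) (mem_univ y) ha.le hb.le hab
  simp only [smul_eq_mul] at h3
  exact le_trans (add_le_add (mul_le_mul_of_nonneg_left h1 ha.le)
    (mul_le_mul_of_nonneg_left h2 hb.le)) h3

lemma PhiConc.concave {f : E → ℝ} (hf : PhiConc f) (h0 : ∀ x, 0 < f x) (h1 : ∀ x, f x < 1) :
    ConcaveOn ℝ univ (fun x => Psi (f x)) := by
  refine ⟨convex_univ, ?_⟩
  intro x _ y _ a b ha hb hab
  simp only [smul_eq_mul]
  rcases ha.eq_or_lt with rfl | ha'
  · have : b = 1 := by linarith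
    subst this
    simp
  rcases hb.eq_or_lt with rfl | hb'
  · have : a = 1 := by linarith
    subst this
    simp
  rw [le_Psi_iff (h0 _) (h1 _)]
  exact hf a b ha' hb' hab x y _ _ (Phi_Psi (h0 x) (h1 x)).le (Phi_Psi (h0 y) (h1 y)).le

lemma PhiConc.comp_affine {f : F → ℝ} (hf : PhiConc f) {T : E → F}
    (hlin : ∀ a b : ℝ, a + b = 1 → ∀ x y, T (a • x + b • y) = a • T x + b • T y) :
    PhiConc (fun x => f (T x)) := by
  intro a b ha hb hab x y s t hs ht
  show Phi (a * s + b * t) ≤ f (T (a • x + b • y))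
  rw [hlin a b hab]
  exact hf a b ha hb hab _ _ s t hs ht

/-- marginals of `Phi`-concave functions are `Phi`-concave -/
theorem Ehr.marginal {ν : Measure F} [IsProbabilityMeasure ν] (hν : Ehr ν) {f : E × F → ℝ}
    (hf : UI f) (hc : PhiConc f) : PhiConc (fun x => ∫ y, f (x, y) ∂ν) := by
  intro a b ha hb hab x y s t hs ht
  have sec : ∀ {r : E × F → ℝ}, UI r → ∀ x, UI (fun y => r (x, y)) := fun hr x =>
    ⟨hr.meas.comp (by fun_prop), fun y => hr.nonneg _, fun y => hr.le_one _⟩
  refine hν a b ha hb hab _ _ _ (sec hf x) (sec hf y) (sec hf (a • x + b • y)) ?_ s t hs ht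
  intro x' y' s t hs ht
  exact hc a b ha hb hab (x, x') (y, y') s t hs ht

lemma integral_section {K : Set (E × F)} (hK : MeasurableSet K) (ν : Measure F) (x : E) :
    ∫ y, K.indicator (fun _ => (1:ℝ)) (x, y) ∂ν = ν.real (Prod.mk x ⁻¹' K) := by
  have h1 : (fun y => K.indicator (fun _ => (1:ℝ)) (x, y))
      = (Prod.mk x ⁻¹' K).indicator (fun _ => (1:ℝ)) := by
    funext y
    by_cases h : (x, y) ∈ K
    · rw [indicator_of_mem h, indicator_of_mem (show y ∈ Prod.mk x ⁻¹' K from h)]
    · rw [indicator_of_notMem h, indicator_of_notMem (show y ∉ Prod.mk x ⁻¹' K from h)]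
  rw [h1]
  exact integral_ind (hK.preimage measurable_prodMk_left) ν

/-- sections of convex sets -/
theorem Ehr.sections {ν : Measure F} [IsProbabilityMeasure ν] (hν : Ehr ν) {K : Set (E × F)}
    (hK : MeasurableSet K) (hc : Convex ℝ K) : PhiConc (fun x => ν.real (Prod.mk x ⁻¹' K)) := by
  have h := hν.marginal (UI.indicator hK) (PhiConc.of_convex hc)
  simp_rw [integral_section hK ν] at h
  exact h

/-- level sets of a concave function: `r ↦ Phi⁻¹ μ(u ≥ -r)` is concave -/
theorem Ehr.levels {μ : Measure E} (hμ : Ehr μ) {u : E → ℝ} (hu : ConcaveOn ℝ univ u)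
    (hm : Measurable u) : PhiConc (fun r : ℝ => μ.real {x | -r ≤ u x}) := by
  intro a b ha hb hab r r' s t hs ht
  refine hμ.sets ha hb hab (measurableSet_le measurable_const hm)
    (measurableSet_le measurable_const hm) (measurableSet_le measurable_const hm) ?_ hs ht
  intro x hx y hy
  simp only [mem_ofPred_eq, smul_eq_mul] at *
  have h3 := hu.2 (mem_univ x) (mem_univ y) ha.le hb.le hab
  simp only [smul_eq_mul] at h3
  have h4 := mul_le_mul_of_nonneg_left hx ha.le
  have h5 := mul_le_mul_of_nonneg_left hy hb.le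
  linarith

/-! ### Central sections and Lemma E -/

lemma Phi_add_le {α x : ℝ} (hα : 0 ≤ α) : Phi (α + x) + Phi (α - x) ≤ 2 * Phi α := by
  wlog hx : 0 ≤ x generalizing x
  · have := this (x := -x) (by linarith)
    rw [sub_neg_eq_add, ← sub_eq_add_neg] at this
    linarith
  have hd : ∀ y, HasDerivAt (fun y => Phi (α + y) + Phi (α - y)) (phi (α + y) - phi (α - y)) y := by
    intro y
    have h1 := (hasDerivAt_Phi (α + y)).comp y ((hasDerivAt_id y).const_add α)
    have h2 := (hasDerivAt_Phi (α - y)).comp y ((hasDerivAt_id y).const_sub α)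
    exact (h1.add h2).congr_deriv (by ring)
  have hmono : AntitoneOn (fun y => Phi (α + y) + Phi (α - y)) (Ici 0) := by
    apply antitoneOn_of_deriv_nonpos (convex_Ici 0)
    · exact fun y _ => (hd y).continuousAt.continuousWithinAt
    · exact fun y _ => (hd y).differentiableAt.differentiableWithinAt
    · intro y hy
      rw [interior_Ici] at hy
      rw [(hd y).deriv]
      have hy' : (0:ℝ) < y := hy
      have : phi (α + y) ≤ phi (α - y) := by
        rw [← show phi |α + y| = phi (α + y) from by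
          rcases abs_choice (α + y) with h | h <;> rw [h]
          exact phi_neg _]
        apply phi_anti
        rw [abs_of_nonneg (by linarith : 0 ≤ α + y), abs_le]
        constructor <;> linarith
      linarith
  have h := hmono (mem_Ici.mpr le_rfl) (mem_Ici.mpr hx) hx
  simp only [add_zero, sub_zero] at h
  linarith

lemma Phi_add_lt {α x : ℝ} (hα : α < 0) : Phi (α + x) + Phi (α - x) < 1 := by
  have h1 : Phi (α - x) = 1 - Phi (x - α) := by
    rw [← Phi_neg]; congr 1; ring
  have h2 : Phi (α + x) < Phi (x - α) := strictMono_Phi (by linarith)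
  linarith

/-- midpoint inequality -/
lemma midpoint_le {p q m : ℝ} (hp : 0 ≤ p) (hp1 : p ≤ 1) (hq : 0 ≤ q) (hq1 : q ≤ 1)
    (hm0 : 0 ≤ m) (hm1 : m ≤ 1)
    (H : ∀ s t, Phi s ≤ p → Phi t ≤ q → Phi (1 / 2 * s + 1 / 2 * t) ≤ m) :
    (1 / 2 ≤ m → p + q ≤ 2 * m) ∧ (m < 1 / 2 → p + q ≤ 1) := by
  -- reduce to `p, q > 0`
  rcases hp.eq_or_lt with rfl | hp0
  · refine ⟨fun h => by linarith, fun _ => by linarith⟩
  rcases hq.eq_or_lt with rfl | hq0
  · refine ⟨fun h => by linarith, fun _ => by linarith⟩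
  rcases hm1.eq_or_lt with rfl | hm1'
  · refine ⟨fun _ => by linarith, fun h => by linarith⟩
  -- for all `s, t` admissible
  have key : ∀ s t, Phi s ≤ p → Phi t ≤ q →
      (1 / 2 ≤ m → Phi s + Phi t ≤ 2 * m) ∧ (m < 1 / 2 → Phi s + Phi t ≤ 1) := by
    intro s t hs ht
    have h1 := H s t hs ht
    have hm0' : 0 < m := lt_of_lt_of_le (Phi_pos _) h1
    obtain ⟨α, rfl⟩ := exists_Phi_eq hm0' hm1'
    have h2 : 1 / 2 * s + 1 / 2 * t ≤ α := strictMono_Phi.le_iff_le.mp h1
    have h3 : Phi t ≤ Phi (2 * α - s) := strictMono_Phi.monotone (by linarith)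
    have e1 : Phi s = Phi (α + (s - α)) := by congr 1; ring
    have e2 : Phi (2 * α - s) = Phi (α - (s - α)) := by congr 1; ring
    constructor
    · intro hα
      rw [← Phi_zero, strictMono_Phi.le_iff_le] at hα
      have h4 := Phi_add_le (x := s - α) hα
      rw [← e1, ← e2] at h4
      linarith
    · intro hα
      rw [← Phi_zero, strictMono_Phi.lt_iff_lt] at hα
      have h4 := Phi_add_lt (x := s - α) hα
      rw [← e1, ← e2] at h4
      linarith
  -- approximate `p` and `q` from below
  have appr : ∀ r : ℝ, 0 < r → r ≤ 1 → ∀ e : ℝ, 0 < e → ∃ s, Phi s ≤ r ∧ r - e ≤ Phi s := by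
    intro r hr hr1 e he
    by_cases h : r - e ≤ 0
    · obtain ⟨s, hs⟩ := (tendsto_Phi_atBot.eventually_lt_const hr).exists
      exact ⟨s, hs.le, h.trans (Phi_nonneg _)⟩
    · push Not at h
      obtain ⟨s, hs⟩ := exists_Phi_eq h (by linarith)
      exact ⟨s, by rw [hs]; linarith, by rw [hs]⟩
  constructor
  · intro hm
    apply le_of_forall_pos_le_add
    intro e he
    obtain ⟨s, hs, hs'⟩ := appr p hp0 hp1 (e / 2) (by linarith)
    obtain ⟨t, ht, ht'⟩ := appr q hq0 hq1 (e / 2) (by linarith)
    have := (key s t hs ht).1 hm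
    linarith
  · intro hm
    apply le_of_forall_pos_le_add
    intro e he
    obtain ⟨s, hs, hs'⟩ := appr p hp0 hp1 (e / 2) (by linarith)
    obtain ⟨t, ht, ht'⟩ := appr q hq0 hq1 (e / 2) (by linarith)
    have := (key s t hs ht).2 hm
    linarith

/-- **Central sections.** If the convex set `K ⊆ E × F` has measure `> 1/2`, its central section
has at least the same measure (`ν` symmetric). -/
theorem Ehr.central {μ : Measure E} [IsProbabilityMeasure μ] (hμ : Ehr μ) {ν : Measure F}
    [IsProbabilityMeasure ν] [MeasurableNeg F] (hsym : ν.map (fun y => -y) = ν)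
    {K : Set (E × F)} (hK : MeasurableSet K) (hc : Convex ℝ K)
    (h : 1 / 2 < (μ.prod ν).real K) :
    (μ.prod ν).real K ≤ μ.real {x | (x, (0:F)) ∈ K} := by
  set m : F → ℝ := fun y => μ.real {x | (x, y) ∈ K} with hm
  have hpre : ∀ y, {x | (x, y) ∈ K} = (fun x => (x, y)) ⁻¹' K := fun y => rfl
  have hint : (μ.prod ν).real K = ∫ y, m y ∂ν := by
    rw [← integral_ind hK, integral_prod_symm _ ((UI.indicator hK).integrable _)]
    congr 1; funext y
    have e1 : (fun x => K.indicator (fun _ => (1:ℝ)) (x, y))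
        = ((fun x => (x, y)) ⁻¹' K).indicator (fun _ => (1:ℝ)) := by
      funext x
      by_cases h : (x, y) ∈ K
      · rw [indicator_of_mem h, indicator_of_mem (show x ∈ (fun x => (x, y)) ⁻¹' K from h)]
      · rw [indicator_of_notMem h,
          indicator_of_notMem (show x ∉ (fun x => (x, y)) ⁻¹' K from h)]
    rw [e1, integral_ind (hK.preimage measurable_prodMk_right)]
    rfl
  have hmm : Measurable m := by
    have h1 := UI.integral (E := F) (F := E) (f := fun p : F × E => K.indicator (fun _ => (1:ℝ))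
      (p.2, p.1)) ⟨(measurable_const.indicator hK).comp measurable_swap,
        fun x => (UI.indicator hK).nonneg _, fun x => (UI.indicator hK).le_one _⟩ μ
    have h2 : m = fun y => ∫ x, K.indicator (fun _ => (1:ℝ)) (x, y) ∂μ := by
      funext y
      have e1 : (fun x => K.indicator (fun _ => (1:ℝ)) (x, y))
        = ((fun x => (x, y)) ⁻¹' K).indicator (fun _ => (1:ℝ)) := by
        funext x
        by_cases h : (x, y) ∈ K
        · rw [indicator_of_mem h, indicator_of_mem (show x ∈ (fun x => (x, y)) ⁻¹' K from h)]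
        · rw [indicator_of_notMem h,
            indicator_of_notMem (show x ∉ (fun x => (x, y)) ⁻¹' K from h)]
      rw [e1, integral_ind (hK.preimage measurable_prodMk_right)]
      rfl
    rw [h2]; exact h1.meas
  have m0 : ∀ y, 0 ≤ m y := fun y => measureReal_nonneg
  have m1 : ∀ y, m y ≤ 1 := fun y => measureReal_le_one
  have mi : Integrable m ν := Integrable.of_bound hmm.aestronglyMeasurable 1
    (Eventually.of_forall (fun y => by
      rw [Real.norm_eq_abs, abs_of_nonneg (m0 _)]; exact m1 _))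
  have mi' : Integrable (fun y => m (-y)) ν := Integrable.of_bound
    (hmm.comp measurable_neg).aestronglyMeasurable 1
    (Eventually.of_forall (fun y => by
      rw [Real.norm_eq_abs, abs_of_nonneg (m0 _)]; exact m1 _))
  have hneg : ∫ y, m (-y) ∂ν = ∫ y, m y ∂ν := by
    conv_rhs => rw [← hsym]
    rw [integral_map measurable_neg.aemeasurable hmm.aestronglyMeasurable]
  have hmid : ∀ y, (1 / 2 ≤ m 0 → m y + m (-y) ≤ 2 * m 0) ∧ (m 0 < 1 / 2 → m y + m (-y) ≤ 1) := by
    intro y
    apply midpoint_le (m0 y) (m1 y) (m0 _) (m1 _) (m0 0) (m1 0)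
    intro s t hs ht
    refine hμ.sets (by norm_num) (by norm_num) (by norm_num)
      (hK.preimage measurable_prodMk_right) (hK.preimage measurable_prodMk_right)
      (hK.preimage measurable_prodMk_right) ?_ hs ht
    intro x hx x' hx'
    show ((1 / 2 : ℝ) • x + (1 / 2 : ℝ) • x', (0:F)) ∈ K
    have h1 := hc (show (x, y) ∈ K from hx) (show (x', -y) ∈ K from hx')
      (by norm_num : (0:ℝ) ≤ 1 / 2) (by norm_num : (0:ℝ) ≤ 1 / 2) (by norm_num)
    have h2 : (1 / 2 : ℝ) • (x, y) + (1 / 2 : ℝ) • (x', -y)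
        = ((1 / 2 : ℝ) • x + (1 / 2 : ℝ) • x', (0:F)) := by
      ext <;> simp
    rw [h2] at h1
    exact h1
  have h2int : 2 * ∫ y, m y ∂ν = ∫ y, (m y + m (-y)) ∂ν := by
    rw [integral_add mi mi', hneg]; ring
  by_cases hm0 : 1 / 2 ≤ m 0
  · have h3 : ∫ y, (m y + m (-y)) ∂ν ≤ ∫ _y : F, 2 * m 0 ∂ν :=
      integral_mono (mi.add mi') (integrable_const _) (fun y => (hmid y).1 hm0)
    rw [← h2int] at h3
    simp only [integral_const, probReal_univ, smul_eq_mul, one_mul] at h3
    rw [hint]
    show ∫ y, m y ∂ν ≤ m 0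
    linarith
  · push Not at hm0
    exfalso
    have h3 : ∫ y, (m y + m (-y)) ∂ν ≤ ∫ _y : F, (1:ℝ) ∂ν :=
      integral_mono (mi.add mi') (integrable_const _) (fun y => (hmid y).2 hm0)
    rw [← h2int] at h3
    simp only [integral_const, probReal_univ, smul_eq_mul, one_mul] at h3
    rw [hint] at h
    linarith

end

lemma g1_symm : g1.map (fun y => -y) = g1 := by
  rw [gaussianReal_map_neg]; simp

lemma g1_le_Phi (p : ℝ) (hp0 : 0 ≤ p) (hp1 : p ≤ 1) : g1.real {r : ℝ | Phi (-r) ≤ p} = p := by
  have hneg : ∀ A : Set ℝ, MeasurableSet A → g1.real ((fun r => -r) ⁻¹' A) = g1.real A := by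
    intro A hA
    conv_rhs => rw [← g1_symm]
    rw [map_measureReal_apply measurable_neg hA]
  have e1 : {r : ℝ | Phi (-r) ≤ p} = (fun r => -r) ⁻¹' {r | Phi r ≤ p} := rfl
  rw [e1, hneg _ (measurableSet_le continuous_Phi.measurable measurable_const)]
  rcases hp0.eq_or_lt with rfl | h0
  · have : {r : ℝ | Phi r ≤ 0} = ∅ := by
      ext r; simp [Phi_pos r]
    rw [this]; simp
  rcases hp1.eq_or_lt with rfl | h1
  · have : {r : ℝ | Phi r ≤ 1} = univ := by
      ext r; simp [Phi_le_one r]
    rw [this]; simp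
  obtain ⟨x, rfl⟩ := exists_Phi_eq h0 h1
  have : {r : ℝ | Phi r ≤ Phi x} = Iic x := by
    ext r; simp [strictMono_Phi.le_iff_le]
  rw [this]; rfl

section

variable {E : Type*} [AddCommGroup E] [Module ℝ E] [MeasurableSpace E]

/-- `∫ f = E_r μ(f ≥ Phi(-r))` -/
lemma layer {μ : Measure E} [IsProbabilityMeasure μ] {f : E → ℝ} (hf : UI f) :
    (μ.prod g1).real {p : E × ℝ | Phi (-p.2) ≤ f p.1} = ∫ x, f x ∂μ := by
  have hK : MeasurableSet {p : E × ℝ | Phi (-p.2) ≤ f p.1} :=
    measurableSet_le (continuous_Phi.measurable.comp (measurable_neg.comp measurable_snd))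
      (hf.meas.comp measurable_fst)
  rw [← integral_ind hK, integral_prod _ ((UI.indicator hK).integrable _)]
  congr 1; funext x
  rw [integral_section hK g1 x]
  exact g1_le_Phi (f x) (hf.nonneg x) (hf.le_one x)

lemma convex_hyp {f : E → ℝ} (hc : PhiConc f) :
    Convex ℝ {p : E × ℝ | Phi (-p.2) ≤ f p.1} := by
  intro p hp q hq a b ha hb hab
  rcases ha.eq_or_lt with rfl | ha'
  · have : b = 1 := by linarith
    subst this
    simpa using hq
  rcases hb.eq_or_lt with rfl | hb'
  · have : a = 1 := by linarith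
    subst this
    simpa using hp
  have h1 := hc a b ha' hb' hab p.1 q.1 (-p.2) (-q.2) hp hq
  show Phi (-(a • p + b • q).2) ≤ f (a • p + b • q).1
  have e : -(a • p + b • q).2 = a * -p.2 + b * -q.2 := by
    simp only [Prod.snd_add, Prod.smul_snd, smul_eq_mul]; ring
  rw [e]
  exact h1

/-- **Lemma E.** If `f` is `Phi`-concave with `∫ f ≥ 1/2` then `μ(f ≥ 1/2) ≥ ∫ f`. -/
theorem Ehr.lemmaE {μ : Measure E} [IsProbabilityMeasure μ] (hμ : Ehr μ) {f : E → ℝ}
    (hf : UI f) (hc : PhiConc f) (h : 1 / 2 ≤ ∫ x, f x ∂μ) :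
    ∫ x, f x ∂μ ≤ μ.real {x | 1 / 2 ≤ f x} := by
  -- shifted versions
  have hK : ∀ e : ℝ, MeasurableSet {p : E × ℝ | Phi (-p.2 - e) ≤ f p.1} := fun e =>
    measurableSet_le (continuous_Phi.measurable.comp
      ((measurable_neg.comp measurable_snd).sub measurable_const))
      (hf.meas.comp measurable_fst)
  have hKc : ∀ e : ℝ, Convex ℝ {p : E × ℝ | Phi (-p.2 - e) ≤ f p.1} := by
    intro e
    have h1 := convex_hyp hc
    intro p hp q hq a b ha hb hab
    have h2 := h1 (show ((p.1, p.2 + e) : E × ℝ) ∈ {p : E × ℝ | Phi (-p.2) ≤ f p.1} by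
        show Phi (-(p.2 + e)) ≤ f p.1
        have : -(p.2 + e) = -p.2 - e := by ring
        rw [this]; exact hp)
      (show ((q.1, q.2 + e) : E × ℝ) ∈ {p : E × ℝ | Phi (-p.2) ≤ f p.1} by
        show Phi (-(q.2 + e)) ≤ f q.1
        have : -(q.2 + e) = -q.2 - e := by ring
        rw [this]; exact hq) ha hb hab
    show Phi (-(a • p + b • q).2 - e) ≤ f (a • p + b • q).1
    have e1 : -(a • p + b • q).2 - e
        = -(a • (p.1, p.2 + e) + b • (q.1, q.2 + e) : E × ℝ).2 := by
      simp only [Prod.snd_add, Prod.smul_snd, smul_eq_mul]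
      have : e = a * e + b * e := by rw [← add_mul, hab, one_mul]
      linear_combination (-1:ℝ) * this
    rw [e1]
    exact h2
  by_cases hbig : ∀ e : ℝ, 0 < e → 1 / 2 < (μ.prod g1).real {p : E × ℝ | Phi (-p.2 - e) ≤ f p.1}
  · -- all shifted sets have measure > 1/2
    have h1 : ∀ e : ℝ, 0 < e → ∫ x, f x ∂μ ≤ μ.real {x | Phi (-e) ≤ f x} := by
      intro e he
      have h2 := hμ.central g1_symm (hK e) (hKc e) (hbig e he)
      have h3 : {x : E | (x, (0:ℝ)) ∈ {p : E × ℝ | Phi (-p.2 - e) ≤ f p.1}}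
          = {x | Phi (-e) ≤ f x} := by
        ext x; simp
      rw [h3] at h2
      refine le_trans ?_ h2
      rw [← layer hf]
      apply measureReal_mono
      · intro p hp
        show Phi (-p.2 - e) ≤ f p.1
        exact le_trans (strictMono_Phi.monotone (by linarith)) hp
      · exact measure_ne_top _ _
    -- continuity from above
    have h4 : Tendsto (fun n : ℕ => μ.real {x | Phi (-(1 / ((n:ℝ) + 1))) ≤ f x}) atTop
        (𝓝 (μ.real (⋂ n : ℕ, {x | Phi (-(1 / ((n:ℝ) + 1))) ≤ f x}))) := by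
      have := tendsto_measure_iInter_atTop (μ := μ)
        (s := fun n : ℕ => {x | Phi (-(1 / ((n:ℝ) + 1))) ≤ f x})
        (fun n => (measurableSet_le measurable_const hf.meas).nullMeasurableSet) ?_
        ⟨0, measure_ne_top _ _⟩
      · exact (ENNReal.tendsto_toReal (measure_ne_top _ _)).comp this
      · intro n k hnk x hx
        have h5 : (n:ℝ) + 1 ≤ (k:ℝ) + 1 := by exact_mod_cast Nat.add_le_add_right hnk 1
        have h6 : (1:ℝ) / ((k:ℝ) + 1) ≤ 1 / ((n:ℝ) + 1) := by
          apply one_div_le_one_div_of_le (by positivity) h5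
        exact le_trans (strictMono_Phi.monotone (by linarith)) hx
    have h7 : (⋂ n : ℕ, {x | Phi (-(1 / ((n:ℝ) + 1))) ≤ f x}) ⊆ {x | 1 / 2 ≤ f x} := by
      intro x hx
      simp only [mem_iInter, mem_ofPred_eq] at hx
      have h8 : Tendsto (fun n : ℕ => Phi (-(1 / ((n:ℝ) + 1)))) atTop (𝓝 (Phi (-0))) := by
        apply (continuous_Phi.tendsto _).comp
        exact tendsto_one_div_add_atTop_nhds_zero_nat.neg
      rw [neg_zero, Phi_zero] at h8
      exact le_of_tendsto' h8 hx
    have h9 : ∫ x, f x ∂μ ≤ μ.real (⋂ n : ℕ, {x | Phi (-(1 / ((n:ℝ) + 1))) ≤ f x}) :=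
      ge_of_tendsto' h4 (fun n => h1 _ (by positivity))
    exact h9.trans (measureReal_mono h7 (measure_ne_top _ _))
  · -- otherwise `f` is essentially an indicator
    push Not at hbig
    obtain ⟨e, he, hle⟩ := hbig
    -- the shifted layer function
    have hle' : (μ.prod g1).real {p : E × ℝ | Phi (-p.2 - e) ≤ f p.1}
        ≤ (μ.prod g1).real {p : E × ℝ | Phi (-p.2) ≤ f p.1} := by
      rw [layer hf]; linarith
    set φe : E → ℝ := fun x => g1.real {r : ℝ | Phi (-r - e) ≤ f x} with hφe
    have hint : (μ.prod g1).real {p : E × ℝ | Phi (-p.2 - e) ≤ f p.1} = ∫ x, φe x ∂μ := by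
      rw [← integral_ind (hK e), integral_prod _ ((UI.indicator (hK e)).integrable _)]
      congr 1; funext x
      rw [integral_section (hK e) g1 x]
      rfl
    have hφm : UI φe := by
      have := (UI.indicator (hK e)).integral g1
      simp_rw [integral_section (hK e) g1] at this
      exact this
    have hge : ∀ x, f x ≤ φe x := by
      intro x
      rw [← g1_le_Phi (f x) (hf.nonneg x) (hf.le_one x)]
      apply measureReal_mono
      · intro r hr
        show Phi (-r - e) ≤ f x
        exact le_trans (strictMono_Phi.monotone (by linarith)) hr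
      · exact measure_ne_top _ _
    have hzero : ∫ x, (φe x - f x) ∂μ = 0 := by
      apply le_antisymm
      · rw [integral_sub (hφm.integrable μ) (hf.integrable μ), ← hint, ← layer hf]
        linarith
      · exact integral_nonneg (fun x => by have := hge x; show 0 ≤ φe x - f x; linarith)
    have hae : ∀ᵐ x ∂μ, φe x - f x = 0 := by
      have := (integral_eq_zero_iff_of_nonneg (fun x => by
        have := hge x; show 0 ≤ φe x - f x; linarith)
        ((hφm.integrable μ).sub (hf.integrable μ))).mp hzero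
      exact this
    have hstrict : ∀ x, 0 < f x → f x < 1 → f x < φe x := by
      intro x h0 h1
      obtain ⟨y, hy⟩ := exists_Phi_eq h0 h1
      have h2 : {r : ℝ | Phi (-r - e) ≤ f x} = {r : ℝ | Phi (-r) ≤ Phi (y + e)} := by
        ext r
        simp only [mem_ofPred_eq]
        rw [← hy, strictMono_Phi.le_iff_le, strictMono_Phi.le_iff_le]
        constructor <;> intro h <;> linarith
      show f x < g1.real {r : ℝ | Phi (-r - e) ≤ f x}
      rw [h2, g1_le_Phi _ (Phi_nonneg _) (Phi_le_one _), ← hy]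
      exact strictMono_Phi (by linarith)
    have hind : ∀ᵐ x ∂μ, f x ≤ ({x | 1 / 2 ≤ f x} : Set E).indicator (fun _ => (1:ℝ)) x := by
      filter_upwards [hae] with x hx
      by_cases h0 : 0 < f x
      · have h1 : f x = 1 := by
          by_contra hne
          have := hstrict x h0 (lt_of_le_of_ne (hf.le_one x) hne)
          linarith
        rw [indicator_of_mem (show x ∈ {x | 1 / 2 ≤ f x} by
          show 1 / 2 ≤ f x; rw [h1]; norm_num)]
        exact h1.le
      · push Not at h0
        exact h0.trans (indicator_nonneg (fun _ _ => zero_le_one) x)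
    have hm : MeasurableSet {x | 1 / 2 ≤ f x} := measurableSet_le measurable_const hf.meas
    calc ∫ x, f x ∂μ ≤ ∫ x, ({x | 1 / 2 ≤ f x} : Set E).indicator (fun _ => (1:ℝ)) x ∂μ :=
          integral_mono_ae (hf.integrable μ) ((UI.indicator hm).integrable μ) hind
      _ = _ := integral_ind hm μ

end

end Vale.Agent.P262.H847
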