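import Vale.Agent.P262.H853.Calc

/-!
# Mollifier block [LOC-FR]: mollification, `L²` estimates and Friedrichs' commutator lemma
-/

namespace Vale.Agent.P262.H847.Fr

open MeasureTheory Filter Topology Set
open scoped ContDiff ENNReal Convolution
open Vale.Agent.P363.R.Sob
open Vale.Agent.P262.H853

noncomputable section

variable {k : ℕ}

/-- a standard bump -/
def bump0 : ContDiffBump (0 : Eu k) := ⟨1, 2, one_pos, one_lt_two⟩

/-- the standard mollifier -/
def phi0 : Eu k → ℝ := (bump0 : ContDiffBump (0 : Eu k)).normed volume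

theorem phi0_contDiff : ContDiff ℝ ∞ (phi0 : Eu k → ℝ) := bump0.contDiff_normed
theorem phi0_compact : HasCompactSupport (phi0 : Eu k → ℝ) := bump0.hasCompactSupport_normed
theorem phi0_test : Test (phi0 : Eu k → ℝ) := ⟨phi0_contDiff, phi0_compact⟩
theorem phi0_nonneg (z : Eu k) : 0 ≤ phi0 z := bump0.nonneg_normed z
theorem phi0_cont : Continuous (phi0 : Eu k → ℝ) := phi0_contDiff.continuous
theorem phi0_integral : ∫ z : Eu k, phi0 z = 1 := bump0.integral_normed

/-- mollification at scale `t` -/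
def M (t : ℝ) (f : Eu k → ℝ) (x : Eu k) : ℝ := ∫ z, phi0 z * f (x - t • z)

variable {f g q β : Eu k → ℝ} {t : ℝ}

theorem int1 {a : Eu k → ℝ} (ha : Continuous a) (hac : HasCompactSupport a) (hf : Continuous f)
    (t : ℝ) (x : Eu k) : Integrable fun z => a z * f (x - t • z) :=
  (ha.mul (hf.comp (continuous_const.sub (continuous_const_smul t)))).integrable_of_hasCompactSupport
    hac.mul_right

/-- Cauchy-Schwarz with a weight. -/
theorem cs {X : Type*} [MeasurableSpace X] {μ : Measure X} {a u : X → ℝ} (ha0 : ∀ z, 0 ≤ a z)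
    (h0 : Integrable a μ) (h1 : Integrable (fun z => a z * u z) μ)
    (h2 : Integrable (fun z => a z * u z ^ 2) μ) :
    (∫ z, a z * u z ∂μ) ^ 2 ≤ (∫ z, a z ∂μ) * ∫ z, a z * u z ^ 2 ∂μ := by
  have key : ∀ s : ℝ, 0 ≤ (∫ z, a z ∂μ) * (s * s) + (2 * ∫ z, a z * u z ∂μ) * s
      + ∫ z, a z * u z ^ 2 ∂μ := by
    intro s
    have e : ∫ z, a z * (s + u z) ^ 2 ∂μ = (∫ z, a z ∂μ) * (s * s)
        + (2 * ∫ z, a z * u z ∂μ) * s + ∫ z, a z * u z ^ 2 ∂μ := by
      have e1 : ∀ z, a z * (s + u z) ^ 2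
          = (a z * (s * s) + (a z * u z) * (2 * s)) + a z * u z ^ 2 := fun z => by ring
      simp_rw [e1]
      have e2 := integral_add (μ := μ) (f := fun z => a z * (s * s) + a z * u z * (2 * s))
        (g := fun z => a z * u z ^ 2) ((h0.mul_const _).add (h1.mul_const _)) h2
      have e3 := integral_add (μ := μ) (f := fun z => a z * (s * s))
        (g := fun z => a z * u z * (2 * s)) (h0.mul_const _) (h1.mul_const _)
      rw [e2, e3, integral_mul_const, integral_mul_const]
      ring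
    rw [← e]
    exact integral_nonneg fun z => mul_nonneg (ha0 z) (sq_nonneg _)
  have := discrim_le_zero key
  unfold discrim at this
  nlinarith

theorem test_sq (hf : Test f) : Test (fun x => f x ^ 2) := by
  have h := hf.mul hf.1
  have e : (fun x => f x ^ 2) = fun x => f x * f x := funext fun x => sq _
  rw [e]
  exact h

/-- Joint integrability of `a z * f (x - t z)`. -/
theorem int2 {a : Eu k → ℝ} (ha : Continuous a) (hai : Integrable a) (hf : Continuous f)
    (hfi : Integrable f) (t : ℝ) :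
    Integrable (fun p : Eu k × Eu k => a p.2 * f (p.1 - t • p.2)) (volume.prod volume) := by
  have hc : Continuous fun p : Eu k × Eu k => a p.2 * f (p.1 - t • p.2) := by fun_prop
  rw [integrable_prod_iff' hc.aestronglyMeasurable]
  refine ⟨Eventually.of_forall fun z => (hfi.comp_sub_right (t • z)).const_mul (a z), ?_⟩
  have e : (fun z : Eu k => ∫ x : Eu k, ‖a z * f (x - t • z)‖) = fun z => |a z| * ∫ x, |f x| := by
    funext z
    simp only [norm_mul, Real.norm_eq_abs]
    rw [integral_const_mul, integral_sub_right_eq_self (fun x => |f x|)]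
  rw [e]
  exact hai.abs.mul_const _

/-- Schur's test for averages of translates. -/
theorem schur (hβ : Continuous β) (hβc : HasCompactSupport β) (hβ0 : ∀ z, 0 ≤ β z)
    (hf : Test f) (t : ℝ) {G : Eu k → ℝ} (hG : ∀ x, |G x| ≤ ∫ z, β z * |f (x - t • z)|) :
    ∫ x, G x ^ 2 ≤ (∫ z, β z) ^ 2 * ∫ x, f x ^ 2 := by
  have hfc := hf.continuous
  have hβi : Integrable β := hβ.integrable_of_hasCompactSupport hβc
  have hf2 : Integrable fun x => f x ^ 2 := Test.integrable (test_sq hf)
  have I1 := int2 hβ hβi (hfc.pow 2) hf2 t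
  have h1 : ∀ x, G x ^ 2 ≤ (∫ z, β z) * ∫ z, β z * f (x - t • z) ^ 2 := by
    intro x
    have h2 := cs (u := fun z => |f (x - t • z)|) hβ0 hβi (int1 hβ hβc hfc.abs t x)
      (by simpa using int1 hβ hβc (hfc.pow 2) t x)
    simp only [sq_abs] at h2
    refine le_trans ?_ h2
    rw [← sq_abs (G x)]
    exact pow_le_pow_left₀ (abs_nonneg _) (hG x) 2
  calc ∫ x, G x ^ 2 ≤ ∫ x, (∫ z, β z) * ∫ z, β z * f (x - t • z) ^ 2 := by
        refine integral_mono_of_nonneg (Eventually.of_forall fun x => sq_nonneg _) ?_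
          (Eventually.of_forall h1)
        exact I1.integral_prod_left.const_mul _
    _ = (∫ z, β z) * ∫ z, ∫ x, β z * f (x - t • z) ^ 2 := by
        rw [integral_const_mul]
        congr 1
        exact integral_integral_swap I1
    _ = (∫ z, β z) * ∫ z, β z * ∫ x, f x ^ 2 := by
        congr 2
        funext z
        rw [integral_const_mul, integral_sub_right_eq_self (fun x => f x ^ 2)]
    _ = (∫ z, β z) ^ 2 * ∫ x, f x ^ 2 := by
        rw [integral_mul_const]; ring

/-! ### Translations -/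

theorem fderiv_apply_eq (f : Eu k → ℝ) (y h : Eu k) :
    fderiv ℝ f y h = ∑ i, h i * D i f y := by
  have e : h = ∑ i, h i • e i := by
    ext j
    simp [Vale.Agent.P262.H853.e, Pi.single_apply]
  conv_lhs => rw [e]
  rw [map_sum]
  refine Finset.sum_congr rfl fun i _ => ?_
  rw [map_smul]
  rfl

theorem fderiv_sq_le (f : Eu k → ℝ) (y h : Eu k) :
    (fderiv ℝ f y h) ^ 2 ≤ ‖h‖ ^ 2 * ∑ i, D i f y ^ 2 := by
  rw [fderiv_apply_eq, EuclideanSpace.norm_sq_eq]
  simp only [Real.norm_eq_abs, sq_abs]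
  exact Finset.sum_mul_sq_le_sq_mul_sq _ _ _

/-- squared norm of the gradient -/
def Gr (f : Eu k → ℝ) (x : Eu k) : ℝ := ∑ i, D i f x ^ 2

theorem Gr_test (hf : Test f) : Test (Gr f) :=
  Test.sum _ fun i => test_sq (Test.D hf i)

/-- Lebesgue measure on the unit interval -/
def unitM : Measure ℝ := volume.restrict (Ioc 0 1)

instance : IsProbabilityMeasure unitM := ⟨by simp [unitM]⟩

theorem unit_int {u : ℝ → ℝ} (hu : Continuous u) : Integrable u unitM :=
  (hu.integrableOn_Icc (a := 0) (b := 1)).mono_set Ioc_subset_Icc_self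

theorem unit_sq {u : ℝ → ℝ} (hu : Continuous u) : (∫ s, u s ∂unitM) ^ 2 ≤ ∫ s, u s ^ 2 ∂unitM := by
  have h := cs (μ := unitM) (a := fun _ => (1 : ℝ)) (u := u) (fun _ => zero_le_one)
    (integrable_const _) (by simpa using unit_int hu)
    (by simpa using unit_int (u := fun s => u s ^ 2) (hu.pow 2))
  simpa using h

theorem transl_pt (hf : Test f) (h x : Eu k) :
    (f (x - h) - f x) ^ 2 ≤ ‖h‖ ^ 2 * ∫ s, Gr f (x - s • h) ∂unitM := by
  have hfd : Continuous (fderiv ℝ f) := (hf.1.fderiv_right (m := ∞) (by simp)).continuous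
  have hd : ∀ s ∈ uIcc (0 : ℝ) 1, HasDerivAt (fun s : ℝ => f (x - s • h))
      (fderiv ℝ f (x - s • h) (-h)) s := by
    intro s _
    have h2 : HasDerivAt (fun s : ℝ => x - s • h) (-h) s := by
      simpa using ((hasDerivAt_id s).smul_const h).const_sub x
    exact (dif hf.1).hasFDerivAt.comp_hasDerivAt s h2
  have hc : Continuous fun s : ℝ => fderiv ℝ f (x - s • h) (-h) := by
    have : Continuous fun s : ℝ => x - s • h := by fun_prop
    exact (hfd.comp this).clm_apply continuous_const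
  have h3 := intervalIntegral.integral_eq_sub_of_hasDerivAt hd (hc.intervalIntegrable 0 1)
  rw [one_smul, zero_smul, sub_zero, intervalIntegral.integral_of_le zero_le_one] at h3
  have h4 := unit_sq hc
  unfold unitM at h4
  rw [h3] at h4
  refine h4.trans ?_
  have hG := (Gr_test hf).continuous
  have hc3 : Continuous fun s : ℝ => ‖h‖ ^ 2 * Gr f (x - s • h) := by fun_prop
  rw [← integral_const_mul]
  refine integral_mono (unit_int (hc.pow 2)) (unit_int hc3) fun s => ?_
  have := fderiv_sq_le f (x - s • h) (-h)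
  rwa [norm_neg] at this

theorem int3 {G : Eu k → ℝ} (hG : Continuous G) (hGi : Integrable G) (h : Eu k) :
    Integrable (fun p : Eu k × ℝ => G (p.1 - p.2 • h)) ((volume : Measure (Eu k)).prod unitM) := by
  have hc : Continuous fun p : Eu k × ℝ => G (p.1 - p.2 • h) := by fun_prop
  rw [integrable_prod_iff' hc.aestronglyMeasurable]
  refine ⟨Eventually.of_forall fun s => hGi.comp_sub_right (s • h), ?_⟩
  have e : (fun s : ℝ => ∫ x : Eu k, ‖G (x - s • h)‖) = fun _ => ∫ x : Eu k, ‖G x‖ := by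
    funext s
    exact integral_sub_right_eq_self (fun x => ‖G x‖) _
  rw [e]
  exact integrable_const _

/-- `‖f (· - h) - f‖₂ ≤ ‖h‖ ‖∇ f‖₂`. -/
theorem transl (hf : Test f) (h : Eu k) :
    ∫ x, (f (x - h) - f x) ^ 2 ≤ ‖h‖ ^ 2 * ∑ i, ∫ x, D i f x ^ 2 := by
  have hG := (Gr_test hf).continuous
  have hGi := Test.integrable (Gr_test hf)
  have I := int3 hG hGi h
  have s1 : ∫ x, (f (x - h) - f x) ^ 2 ≤ ∫ x, ‖h‖ ^ 2 * ∫ s, Gr f (x - s • h) ∂unitM :=
    integral_mono_of_nonneg (Eventually.of_forall fun x => sq_nonneg _)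
      (I.integral_prod_left.const_mul _) (Eventually.of_forall fun x => transl_pt hf h x)
  have s2 : ∫ x, ∫ s, Gr f (x - s • h) ∂unitM = ∫ s, (∫ x, Gr f (x - s • h)) ∂unitM :=
    integral_integral_swap I
  have s3 : (fun s : ℝ => ∫ x : Eu k, Gr f (x - s • h)) = fun _ => ∫ x : Eu k, Gr f x := by
    funext s
    exact integral_sub_right_eq_self (fun x => Gr f x) _
  rw [integral_const_mul, s2, s3] at s1
  have s4 : ∫ x, Gr f x = ∑ i, ∫ x, D i f x ^ 2 :=
    integral_finsetSum _ fun i _ => Test.integrable (test_sq (Test.D hf i))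
  rw [s4] at s1
  simpa using s1

/-- (c): `‖M_t f - f‖₂ ≤ C t ‖∇ f‖₂`. -/
theorem M_sub_le : ∃ C : ℝ, 0 ≤ C ∧ ∀ (t : ℝ) (f : Eu k → ℝ), Test f →
    ∫ x, (M t f x - f x) ^ 2 ≤ C * t ^ 2 * ∑ i, ∫ x, D i f x ^ 2 := by
  refine ⟨∫ z : Eu k, phi0 z * ‖z‖ ^ 2, integral_nonneg fun z =>
    mul_nonneg (phi0_nonneg z) (sq_nonneg _), fun t f hf => ?_⟩
  set S : ℝ := ∑ i, ∫ x, D i f x ^ 2 with hS
  have hfc := hf.continuous
  have hphi : Integrable (phi0 : Eu k → ℝ) := Test.integrable phi0_test
  have hf2 := Test.integrable (test_sq hf)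
  have J1 := int2 phi0_cont hphi (hfc.pow 2) hf2 t
  have J2 := int2 phi0_cont hphi (hfc.pow 2) hf2 0
  have I : Integrable (fun p : Eu k × Eu k => phi0 p.2 * (f (p.1 - t • p.2) - f p.1) ^ 2)
      (volume.prod volume) := by
    have hc : Continuous fun p : Eu k × Eu k => phi0 p.2 * (f (p.1 - t • p.2) - f p.1) ^ 2 := by
      have := phi0_cont (k := k)
      fun_prop
    refine ((J1.const_mul 2).add (J2.const_mul 2)).mono' hc.aestronglyMeasurable
      (Eventually.of_forall fun p => ?_)
    rw [Real.norm_eq_abs, abs_of_nonneg (mul_nonneg (phi0_nonneg _) (sq_nonneg _))]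
    show phi0 p.2 * (f (p.1 - t • p.2) - f p.1) ^ 2
      ≤ 2 * (phi0 p.2 * f (p.1 - t • p.2) ^ 2) + 2 * (phi0 p.2 * f (p.1 - (0 : ℝ) • p.2) ^ 2)
    rw [zero_smul, sub_zero]
    have h0 := phi0_nonneg p.2
    nlinarith [sq_nonneg (f (p.1 - t • p.2) + f p.1), mul_nonneg h0
      (sq_nonneg (f (p.1 - t • p.2) + f p.1))]
  have h1 : ∀ x, (M t f x - f x) ^ 2 ≤ ∫ z, phi0 z * (f (x - t • z) - f x) ^ 2 := by
    intro x
    have hc : Continuous fun z : Eu k => f (x - t • z) - f x := by fun_prop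
    have i1 : Integrable fun z : Eu k => phi0 z * (f (x - t • z) - f x) :=
      (phi0_cont.mul hc).integrable_of_hasCompactSupport phi0_compact.mul_right
    have i2 : Integrable fun z : Eu k => phi0 z * (f (x - t • z) - f x) ^ 2 :=
      (phi0_cont.mul (hc.pow 2)).integrable_of_hasCompactSupport phi0_compact.mul_right
    have h2 := cs phi0_nonneg hphi i1 i2
    rw [phi0_integral, one_mul] at h2
    have e : ∫ z, phi0 z * (f (x - t • z) - f x) = M t f x - f x := by
      have e1 : ∀ z : Eu k, phi0 z * (f (x - t • z) - f x)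
          = phi0 z * f (x - t • z) - phi0 z * f x := fun z => by ring
      simp_rw [e1]
      rw [integral_sub (int1 phi0_cont phi0_compact hfc t x) (hphi.mul_const _),
        integral_mul_const, phi0_integral, one_mul]
      rfl
    rwa [e] at h2
  have I' := I.integral_prod_right
  calc ∫ x, (M t f x - f x) ^ 2 ≤ ∫ x, ∫ z, phi0 z * (f (x - t • z) - f x) ^ 2 :=
        integral_mono_of_nonneg (Eventually.of_forall fun x => sq_nonneg _) I.integral_prod_left
          (Eventually.of_forall h1)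
    _ = ∫ z, ∫ x, phi0 z * (f (x - t • z) - f x) ^ 2 := integral_integral_swap I
    _ ≤ ∫ z, (phi0 z * ‖z‖ ^ 2) * (t ^ 2 * S) := by
        refine integral_mono I' ?_ fun z => ?_
        · refine Integrable.mul_const ?_ _
          exact (phi0_cont.mul (continuous_norm.pow 2)).integrable_of_hasCompactSupport
            phi0_compact.mul_right
        · show ∫ x, phi0 z * (f (x - t • z) - f x) ^ 2 ≤ _
          rw [integral_const_mul]
          have h3 := transl hf (t • z)
          rw [norm_smul, mul_pow, Real.norm_eq_abs, sq_abs] at h3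
          calc _ ≤ phi0 z * (t ^ 2 * ‖z‖ ^ 2 * S) :=
                mul_le_mul_of_nonneg_left h3 (phi0_nonneg z)
            _ = _ := by ring
    _ = _ := by
        rw [integral_mul_const]; ring

/-! ### The mollification as a convolution -/

/-- the kernel at scale `t` -/
def ker (t : ℝ) (u : Eu k) : ℝ := (t⁻¹) ^ k * phi0 (t⁻¹ • u)

theorem ker_test (ht : 0 < t) : Test (ker t : Eu k → ℝ) := by
  constructor
  · exact contDiff_const.mul (phi0_contDiff.comp (contDiff_const_smul t⁻¹))
  · exact HasCompactSupport.mul_left (phi0_compact.comp_smul (inv_ne_zero ht.ne'))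

theorem M_eq_conv (ht : 0 < t) (f : Eu k → ℝ) (x : Eu k) :
    M t f x = (ker t ⋆[ContinuousLinearMap.lsmul ℝ ℝ, (volume : Measure (Eu k))] f) x := by
  have h := Measure.integral_comp_smul (volume : Measure (Eu k))
    (fun u => phi0 (t⁻¹ • u) * f (x - u)) t
  have e1 : ∀ z : Eu k, phi0 (t⁻¹ • t • z) * f (x - t • z) = phi0 z * f (x - t • z) := fun z => by
    rw [smul_smul, inv_mul_cancel₀ ht.ne', one_smul]
  simp only [e1] at h
  rw [M, h, finrank_euclideanSpace_fin, abs_of_pos (by positivity), smul_eq_mul, convolution_def,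
    ← integral_const_mul]
  refine integral_congr_ae (Eventually.of_forall fun u => ?_)
  simp only [ContinuousLinearMap.lsmul_apply, smul_eq_mul, ker, inv_pow]
  ring

/-- (b) -/
theorem M_eq (ht : 0 < t) (f : Eu k → ℝ) (x : Eu k) :
    M t f x = ∫ y, (t⁻¹) ^ k * phi0 (t⁻¹ • (x - y)) * f y := by
  rw [M_eq_conv ht, convolution_def]
  have h := integral_sub_left_eq_self (fun u : Eu k => ker t u * f (x - u)) volume x
  have e2 : ∀ y : Eu k, x - (x - y) = y := fun y => by abel
  simp only [e2] at h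
  exact h.symm

theorem ker_sub_test (ht : 0 < t) (x : Eu k) :
    Test (fun y : Eu k => (t⁻¹) ^ k * phi0 (t⁻¹ • (x - y))) := by
  constructor
  · exact (ker_test ht).1.comp (contDiff_const.sub contDiff_id)
  · have h := (ker_test (k := k) ht).2.comp_homeomorph (Homeomorph.subLeft x)
    exact h

/-- (a), first part -/
theorem M_test (ht : 0 < t) (hf : Test f) : Test (M t f) := by
  have e : M t f = ker t ⋆[ContinuousLinearMap.lsmul ℝ ℝ, (volume : Measure (Eu k))] f :=
    funext fun x => M_eq_conv ht f x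
  rw [e]
  exact ⟨(ker_test ht).2.contDiff_convolution_left _ (ker_test ht).1 hf.continuous.locallyIntegrable,
    (ker_test ht).2.convolution _ hf.2⟩

/-- (a), second part -/
theorem D_M (ht : 0 < t) (hf : Test f) (i : Fin k) (x : Eu k) :
    D i (M t f) x = M t (D i f) x := by
  have e : M t f = ker t ⋆[ContinuousLinearMap.lsmul ℝ ℝ, (volume : Measure (Eu k))] f :=
    funext fun x => M_eq_conv ht f x
  have hK : LocallyIntegrable (ker t : Eu k → ℝ) :=
    (ker_test ht).continuous.locallyIntegrable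
  have h := hf.2.hasFDerivAt_convolution_right (ContinuousLinearMap.lsmul ℝ ℝ) hK
    (hf.1.of_le (by simp)) x
  rw [M_eq_conv ht, e]
  show fderiv ℝ _ x _ = _
  rw [h.fderiv]
  exact convolution_precompR_apply _ hK (hf.2.fderiv ℝ)
    (hf.1.continuous_fderiv (by simp)) x _

/-! ### Friedrichs' commutator -/

/-- the commutator of the multiplication by `q` and the mollification -/
def comm (q : Eu k → ℝ) (t : ℝ) (f : Eu k → ℝ) (x : Eu k) : ℝ :=
  q x * M t f x - M t (fun y => q y * f y) x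

theorem comm_eq (hq : Test q) (hf : Test f) (t : ℝ) (x : Eu k) :
    comm q t f x = ∫ z, phi0 z * ((q x - q (x - t • z)) * f (x - t • z)) := by
  have hqf : Continuous fun y => q y * f y := hq.continuous.mul hf.continuous
  have e1 : ∀ z : Eu k, phi0 z * ((q x - q (x - t • z)) * f (x - t • z))
      = q x * (phi0 z * f (x - t • z)) - phi0 z * (q (x - t • z) * f (x - t • z)) := fun z => by
    ring
  simp_rw [e1]
  rw [integral_sub ((int1 phi0_cont phi0_compact hf.continuous t x).const_mul _)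
    (int1 phi0_cont phi0_compact hqf t x), integral_const_mul]
  rfl

theorem exists_lip (hq : Test q) : ∃ L : ℝ, 0 ≤ L ∧ ∀ x y, |q x - q y| ≤ L * ‖x - y‖ := by
  obtain ⟨L, hL⟩ := hq.2.exists_bound_of_continuous hq.continuous
  obtain ⟨C, hC⟩ := ContDiff.lipschitzWith_of_hasCompactSupport hq.2
    (hq.1.of_le (m := 1) (by simp)) one_ne_zero
  refine ⟨C, C.2, fun x y => ?_⟩
  have := hC.dist_le_mul x y
  rwa [Real.dist_eq, dist_eq_norm] at this

theorem exists_bd (hq : Test q) : ∃ L : ℝ, 0 ≤ L ∧ ∀ x, |q x| ≤ L := by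
  obtain ⟨L, hL⟩ := hq.2.exists_bound_of_continuous hq.continuous
  exact ⟨max L 0, le_max_right _ _, fun x => (hL x).trans (le_max_left _ _)⟩

theorem comm_pt (hq : Test q) {L : ℝ} (hL0 : 0 ≤ L) (hL : ∀ x y, |q x - q y| ≤ L * ‖x - y‖)
    (ht : 0 ≤ t) (hf : Test f) (x : Eu k) :
    |comm q t f x| ≤ ∫ z, (t * L * ‖z‖ * phi0 z) * |f (x - t • z)| := by
  rw [comm_eq hq hf]
  have hc : Continuous fun z : Eu k => t * L * ‖z‖ * phi0 z :=
    (continuous_const.mul continuous_norm).mul phi0_cont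
  have hcs : HasCompactSupport fun z : Eu k => t * L * ‖z‖ * phi0 z := phi0_compact.mul_left
  rw [← Real.norm_eq_abs]
  refine norm_integral_le_of_norm_le (int1 hc hcs hf.continuous.abs t x)
    (Eventually.of_forall fun z => ?_)
  rw [Real.norm_eq_abs, abs_mul, abs_mul, abs_of_nonneg (phi0_nonneg z)]
  have h1 := hL x (x - t • z)
  rw [sub_sub_cancel, norm_smul, Real.norm_eq_abs, abs_of_nonneg ht] at h1
  calc phi0 z * (|q x - q (x - t • z)| * |f (x - t • z)|)
      ≤ phi0 z * ((L * (t * ‖z‖)) * |f (x - t • z)|) :=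
        mul_le_mul_of_nonneg_left (mul_le_mul_of_nonneg_right h1 (abs_nonneg _)) (phi0_nonneg z)
    _ = _ := by ring

/-- (d): `‖[q, M_t] f‖₂ ≤ C t ‖f‖₂`. -/
theorem comm_le (hq : Test q) : ∃ C : ℝ, 0 ≤ C ∧ ∀ (t : ℝ) (f : Eu k → ℝ), 0 ≤ t → Test f →
    ∫ x, comm q t f x ^ 2 ≤ C * t ^ 2 * ∫ x, f x ^ 2 := by
  obtain ⟨L, hL0, hL⟩ := exists_lip hq
  refine ⟨(∫ z : Eu k, L * ‖z‖ * phi0 z) ^ 2, sq_nonneg _, fun t f ht hf => ?_⟩
  have hc : Continuous fun z : Eu k => t * L * ‖z‖ * phi0 z :=
    (continuous_const.mul continuous_norm).mul phi0_cont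
  have hcs : HasCompactSupport fun z : Eu k => t * L * ‖z‖ * phi0 z := phi0_compact.mul_left
  have h := schur hc hcs (fun z => mul_nonneg (by positivity) (phi0_nonneg z)) hf t
    (comm_pt hq hL0 hL ht hf)
  have e : ∫ z : Eu k, t * L * ‖z‖ * phi0 z = t * ∫ z : Eu k, L * ‖z‖ * phi0 z := by
    rw [← integral_const_mul]
    refine integral_congr_ae (Eventually.of_forall fun z => ?_)
    show t * L * ‖z‖ * phi0 z = t * (L * ‖z‖ * phi0 z)
    ring
  rw [e, mul_pow] at h
  linarith

theorem comm_test (ht : 0 < t) (hq : Test q) (hf : Test f) : Test (comm q t f) :=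
  Test.sub (Test.mul' hq.1 (M_test ht hf)) (M_test ht (Test.mul' hq.1 hf))

theorem M_add (hf : Test f) (hg : Test g) (t : ℝ) (x : Eu k) :
    M t (fun y => f y + g y) x = M t f x + M t g x := by
  have e : ∀ z : Eu k, phi0 z * (f (x - t • z) + g (x - t • z))
      = phi0 z * f (x - t • z) + phi0 z * g (x - t • z) := fun z => by ring
  simp only [M, e]
  exact integral_add (int1 phi0_cont phi0_compact hf.continuous t x)
    (int1 phi0_cont phi0_compact hg.continuous t x)

theorem D_comm_eq (ht : 0 < t) (hq : Test q) (hf : Test f) (i : Fin k) (x : Eu k) :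
    D i (comm q t f) x = comm (D i q) t f x + comm q t (D i f) x := by
  have hqf : Test (fun y => q y * f y) := Test.mul' hq.1 hf
  have h1 : D i (comm q t f) x = (D i q x * M t f x + q x * D i (M t f) x)
      - D i (M t fun y => q y * f y) x := by
    unfold comm
    rw [D_sub (hq.1.mul (M_test ht hf).1) (M_test ht hqf).1, D_mul hq.1 (M_test ht hf).1]
  have h2 : D i (fun y => q y * f y) = fun y => D i q y * f y + q y * D i f y :=
    funext fun y => D_mul hq.1 hf.1
  rw [h1, D_M ht hf, D_M ht hqf, h2,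
    M_add (Test.mul' (Test.D hq i).1 hf) (Test.mul' hq.1 (Test.D hf i))]
  unfold comm
  ring

/-- integration by parts in the commutator -/
theorem comm_D (ht : 0 < t) (hq : Test q) (hf : Test f) (i : Fin k) (x : Eu k) :
    comm q t (D i f) x = ∫ z, (t⁻¹ * (D i phi0 z * (q x - q (x - t • z)))
      + phi0 z * D i q (x - t • z)) * f (x - t • z) := by
  rw [comm_eq hq (Test.D hf i)]
  have hsub : ContDiff ℝ ∞ fun z : Eu k => x - t • z := contDiff_const.sub (contDiff_const_smul t)
  have hq1 : ContDiff ℝ ∞ fun z : Eu k => q x - q (x - t • z) :=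
    contDiff_const.sub (hq.1.comp hsub)
  have hf1 : ContDiff ℝ ∞ fun z : Eu k => f (x - t • z) := hf.1.comp hsub
  have hD : ∀ {g : Eu k → ℝ}, Test g → ∀ z : Eu k,
      D i (fun z => g (x - t • z)) z = -t * D i g (x - t • z) := by
    intro g hg z
    have h1 : HasFDerivAt (fun z : Eu k => x - t • z) (-(t • ContinuousLinearMap.id ℝ (Eu k))) z := by
      simpa using ((hasFDerivAt_id z).const_smul t).const_sub x
    have h2 := (dif (x := x - t • z) hg.1).hasFDerivAt.comp z h1
    show fderiv ℝ (g ∘ fun z : Eu k => x - t • z) z (e i) = _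
    rw [h2.fderiv]
    simp [D]
  set G : Eu k → ℝ := fun z => phi0 z * ((q x - q (x - t • z)) * f (x - t • z)) with hG
  have hGt : Test G := phi0_test.mul (hq1.mul hf1)
  have hz := integral_D_eq_zero hGt i
  have eD : ∀ z, D i G z = D i phi0 z * ((q x - q (x - t • z)) * f (x - t • z))
      + phi0 z * ((t * D i q (x - t • z)) * f (x - t • z)
        + (q x - q (x - t • z)) * (-t * D i f (x - t • z))) := by
    intro z
    rw [hG, D_mul phi0_contDiff (hq1.mul hf1), D_mul hq1 hf1, hD hf,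
      D_sub (g := fun z => q (x - t • z)) contDiff_const (hq.1.comp hsub), D_const, hD hq]
    ring
  have c1 : Continuous fun z : Eu k => (q x - q (x - t • z)) * f (x - t • z) :=
    (hq1.mul hf1).continuous
  have c2 : Continuous fun z : Eu k => D i q (x - t • z) * f (x - t • z) :=
    (((Test.D hq i).1.comp hsub).mul hf1).continuous
  have c3 : Continuous fun z : Eu k => (q x - q (x - t • z)) * D i f (x - t • z) :=
    (hq1.mul ((Test.D hf i).1.comp hsub)).continuous
  have i1 : Integrable fun z : Eu k => D i phi0 z * ((q x - q (x - t • z)) * f (x - t • z)) :=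
    ((Test.D phi0_test i).continuous.mul c1).integrable_of_hasCompactSupport
      (Test.D phi0_test i).2.mul_right
  have i2 : Integrable fun z : Eu k => phi0 z * (D i q (x - t • z) * f (x - t • z)) :=
    (phi0_cont.mul c2).integrable_of_hasCompactSupport phi0_compact.mul_right
  have i3 : Integrable fun z : Eu k => phi0 z * ((q x - q (x - t • z)) * D i f (x - t • z)) :=
    (phi0_cont.mul c3).integrable_of_hasCompactSupport phi0_compact.mul_right
  have e2 : ∫ z, D i G z = (∫ z, D i phi0 z * ((q x - q (x - t • z)) * f (x - t • z)))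
      + t * (∫ z, phi0 z * (D i q (x - t • z) * f (x - t • z)))
      - t * ∫ z, phi0 z * ((q x - q (x - t • z)) * D i f (x - t • z)) := by
    have e3 : ∀ z, D i G z = (D i phi0 z * ((q x - q (x - t • z)) * f (x - t • z))
        + t * (phi0 z * (D i q (x - t • z) * f (x - t • z))))
        - t * (phi0 z * ((q x - q (x - t • z)) * D i f (x - t • z))) := fun z => by
      rw [eD]; ring
    simp_rw [e3]
    have a1 := integral_sub (μ := (volume : Measure (Eu k))) (i1.add (i2.const_mul t)) (i3.const_mul t)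
    have a2 := integral_add (μ := (volume : Measure (Eu k))) i1 (i2.const_mul t)
    rw [integral_const_mul] at a1 a2
    refine a1.trans ?_
    congr 1
  have e4 : ∫ z, (t⁻¹ * (D i phi0 z * (q x - q (x - t • z)))
      + phi0 z * D i q (x - t • z)) * f (x - t • z)
      = t⁻¹ * (∫ z, D i phi0 z * ((q x - q (x - t • z)) * f (x - t • z)))
        + ∫ z, phi0 z * (D i q (x - t • z) * f (x - t • z)) := by
    have e5 : ∀ z : Eu k, (t⁻¹ * (D i phi0 z * (q x - q (x - t • z)))
        + phi0 z * D i q (x - t • z)) * f (x - t • z)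
        = t⁻¹ * (D i phi0 z * ((q x - q (x - t • z)) * f (x - t • z)))
          + phi0 z * (D i q (x - t • z) * f (x - t • z)) := fun z => by ring
    simp_rw [e5]
    rw [← integral_const_mul]
    exact integral_add (i1.const_mul t⁻¹) i2
  rw [e4]
  rw [e2] at hz
  have hz' : t * (∫ z, phi0 z * ((q x - q (x - t • z)) * D i f (x - t • z)))
      = (∫ z, D i phi0 z * ((q x - q (x - t • z)) * f (x - t • z)))
      + t * (∫ z, phi0 z * (D i q (x - t • z) * f (x - t • z))) := by linarith
  have hz'' : ∫ z, phi0 z * ((q x - q (x - t • z)) * D i f (x - t • z))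
      = t⁻¹ * (t * ∫ z, phi0 z * ((q x - q (x - t • z)) * D i f (x - t • z))) := by
    rw [inv_mul_cancel_left₀ ht.ne']
  rw [hz'', hz', mul_add, inv_mul_cancel_left₀ ht.ne']

theorem sq_add_int (hf : Test f) (hg : Test g) :
    ∫ x, (f x + g x) ^ 2 ≤ 2 * (∫ x, f x ^ 2) + 2 * ∫ x, g x ^ 2 := by
  have i1 := Test.integrable (test_sq hf)
  have i2 := Test.integrable (test_sq hg)
  have e : ∫ x, (2 * f x ^ 2 + 2 * g x ^ 2) = 2 * (∫ x, f x ^ 2) + 2 * ∫ x, g x ^ 2 := by
    rw [← integral_const_mul, ← integral_const_mul]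
    exact integral_add (i1.const_mul 2) (i2.const_mul 2)
  rw [← e]
  refine integral_mono (Test.integrable (test_sq (Test.add hf hg)))
    ((i1.const_mul 2).add (i2.const_mul 2)) fun x => ?_
  show (f x + g x) ^ 2 ≤ 2 * f x ^ 2 + 2 * g x ^ 2
  nlinarith [sq_nonneg (f x - g x)]

/-- (e): `‖∂_i [q, M_t] f‖₂ ≤ C ‖f‖₂` and `≤ C t (‖f‖₂ + ‖∂_i f‖₂)`. -/
theorem D_comm_le (hq : Test q) (i : Fin k) : ∃ C : ℝ, 0 ≤ C ∧ ∀ (t : ℝ) (f : Eu k → ℝ),
    0 < t → t ≤ 1 → Test f →
      ∫ x, D i (comm q t f) x ^ 2 ≤ C * ∫ x, f x ^ 2 ∧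
      ∫ x, D i (comm q t f) x ^ 2 ≤ C * t ^ 2 * ((∫ x, f x ^ 2) + ∫ x, D i f x ^ 2) := by
  obtain ⟨C1, hC1, h1⟩ := comm_le (Test.D hq i)
  obtain ⟨C2, hC2, h2⟩ := comm_le hq
  obtain ⟨L, hL0, hL⟩ := exists_lip hq
  obtain ⟨B, hB0, hB⟩ := exists_bd (Test.D hq i)
  set β : Eu k → ℝ := fun z => L * ‖z‖ * |D i phi0 z| + B * phi0 z with hβ
  have hDp := Test.D (phi0_test (k := k)) i
  have hβc : Continuous β :=
    ((continuous_const.mul continuous_norm).mul hDp.continuous.abs).add
      (continuous_const.mul phi0_cont)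
  have hβs : HasCompactSupport β := by
    have s1 : HasCompactSupport fun z : Eu k => |D i phi0 z| := hDp.2.norm
    exact (HasCompactSupport.mul_left s1).add (HasCompactSupport.mul_left phi0_compact)
  have hβ0 : ∀ z, 0 ≤ β z := fun z =>
    add_nonneg (mul_nonneg (mul_nonneg hL0 (norm_nonneg _)) (abs_nonneg _))
      (mul_nonneg hB0 (phi0_nonneg z))
  set C3 : ℝ := (∫ z, β z) ^ 2 with hC3
  have hC3' : 0 ≤ C3 := sq_nonneg _
  refine ⟨2 * (C1 + C2 + C3), by positivity, fun t f ht ht1 hf => ?_⟩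
  have F0 : 0 ≤ ∫ x, f x ^ 2 := integral_nonneg fun x => sq_nonneg _
  have F1 : 0 ≤ ∫ x, D i f x ^ 2 := integral_nonneg fun x => sq_nonneg _
  have A1 := h1 t f ht.le hf
  have A2 := h2 t (D i f) ht.le (Test.D hf i)
  have A3 : ∫ x, comm q t (D i f) x ^ 2 ≤ C3 * ∫ x, f x ^ 2 := by
    refine schur hβc hβs hβ0 hf t fun x => ?_
    rw [comm_D ht hq hf, ← Real.norm_eq_abs]
    refine norm_integral_le_of_norm_le (int1 hβc hβs hf.continuous.abs t x)
      (Eventually.of_forall fun z => ?_)
    rw [Real.norm_eq_abs, abs_mul]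
    refine mul_le_mul_of_nonneg_right ?_ (abs_nonneg _)
    have g1 := hL x (x - t • z)
    rw [sub_sub_cancel, norm_smul, Real.norm_eq_abs, abs_of_pos ht] at g1
    have g2 := hB (x - t • z)
    calc |t⁻¹ * (D i phi0 z * (q x - q (x - t • z))) + phi0 z * D i q (x - t • z)|
        ≤ |t⁻¹ * (D i phi0 z * (q x - q (x - t • z)))| + |phi0 z * D i q (x - t • z)| :=
          abs_add_le _ _
      _ = t⁻¹ * (|D i phi0 z| * |q x - q (x - t • z)|) + phi0 z * |D i q (x - t • z)| := by
          rw [abs_mul, abs_mul, abs_mul, abs_of_pos (inv_pos.mpr ht), abs_of_nonneg (phi0_nonneg z)]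
      _ ≤ t⁻¹ * (|D i phi0 z| * (L * (t * ‖z‖))) + phi0 z * B := by
          gcongr
          exact phi0_nonneg z
      _ = β z := by
          simp only [hβ]
          field_simp
  have hcT1 := comm_test ht (Test.D hq i) hf
  have hcT2 := comm_test ht hq (Test.D hf i)
  have A4 : ∫ x, D i (comm q t f) x ^ 2 ≤ 2 * (∫ x, comm (D i q) t f x ^ 2)
      + 2 * ∫ x, comm q t (D i f) x ^ 2 := by
    have := sq_add_int hcT1 hcT2
    refine le_trans (le_of_eq ?_) this
    refine integral_congr_ae (Eventually.of_forall fun x => ?_)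
    show D i (comm q t f) x ^ 2 = (comm (D i q) t f x + comm q t (D i f) x) ^ 2
    rw [D_comm_eq ht hq hf]
  have ht2 : t ^ 2 ≤ 1 := by nlinarith
  have ht2' : 0 ≤ t ^ 2 := sq_nonneg t
  constructor
  · have B1 : C1 * t ^ 2 * (∫ x, f x ^ 2) ≤ C1 * ∫ x, f x ^ 2 := by
      have : C1 * t ^ 2 ≤ C1 := by nlinarith
      exact mul_le_mul_of_nonneg_right this F0
    have B2 : 0 ≤ C2 * ∫ x, f x ^ 2 := mul_nonneg hC2 F0
    nlinarith
  · have B1 : 0 ≤ C1 * t ^ 2 * ∫ x, D i f x ^ 2 := by positivity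
    have B2 : 0 ≤ C2 * t ^ 2 * ∫ x, f x ^ 2 := by positivity
    have B3 : 0 ≤ C3 * t ^ 2 * ((∫ x, f x ^ 2) + ∫ x, D i f x ^ 2) := by positivity
    nlinarith

end

end Vale.Agent.P262.H847.Fr
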