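import Vale.Agent.P262.H847.Fr

/-!
# Mollifier block [LOC-FR], small additions
-/

namespace Vale.Agent.P262.H847.Fr

open MeasureTheory Filter Topology Set
open scoped ContDiff ENNReal Convolution
open Vale.Agent.P363.R.Sob
open Vale.Agent.P262.H853

noncomputable section

variable {k : ℕ} {f g q : Eu k → ℝ} {t : ℝ}

/-- (c') -/
theorem M_sq_le (t : ℝ) (hf : Test f) : ∫ x, M t f x ^ 2 ≤ ∫ x, f x ^ 2 := by
  have h := schur phi0_cont phi0_compact phi0_nonneg hf t (G := M t f) fun x => by
    rw [← Real.norm_eq_abs]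
    refine norm_integral_le_of_norm_le (int1 phi0_cont phi0_compact hf.continuous.abs t x)
      (Eventually.of_forall fun z => ?_)
    rw [Real.norm_eq_abs, abs_mul, abs_of_nonneg (phi0_nonneg z)]
  rwa [phi0_integral, one_pow, one_mul] at h

/-- (f) -/
theorem phi0_support {z : Eu k} (hz : 2 ≤ ‖z‖) : phi0 z = 0 := by
  have h : z ∉ Function.support (phi0 : Eu k → ℝ) := by
    unfold phi0
    rw [ContDiffBump.support_normed_eq]
    intro h
    rw [Metric.mem_ball, dist_zero_right] at h
    exact absurd h (not_lt.mpr hz)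
  exact Function.notMem_support.mp h

/-- (f) -/
theorem M_congr (ht : 0 ≤ t) {x : Eu k} (h : ∀ y, ‖y - x‖ ≤ 2 * t → f y = g y) :
    M t f x = M t g x := by
  unfold M
  refine integral_congr_ae (Eventually.of_forall fun z => ?_)
  show phi0 z * f (x - t • z) = phi0 z * g (x - t • z)
  by_cases hz : 2 ≤ ‖z‖
  · rw [phi0_support hz, zero_mul, zero_mul]
  · rw [h]
    rw [sub_sub_cancel_left, norm_neg, norm_smul, Real.norm_eq_abs, abs_of_nonneg ht]
    nlinarith [not_le.mp hz]

/-- (g) -/
theorem M_sub (hf : Test f) (hg : Test g) (t : ℝ) (x : Eu k) :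
    M t (fun y => f y - g y) x = M t f x - M t g x := by
  have e : ∀ z : Eu k, phi0 z * (f (x - t • z) - g (x - t • z))
      = phi0 z * f (x - t • z) - phi0 z * g (x - t • z) := fun z => by ring
  simp only [M, e]
  exact integral_sub (int1 phi0_cont phi0_compact hf.continuous t x)
    (int1 phi0_cont phi0_compact hg.continuous t x)

/-- (g) -/
theorem M_sum {ι : Type*} (s : Finset ι) {F : ι → Eu k → ℝ} (hF : ∀ a ∈ s, Test (F a)) (t : ℝ)
    (x : Eu k) : M t (fun y => ∑ a ∈ s, F a y) x = ∑ a ∈ s, M t (F a) x := by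
  simp only [M, Finset.mul_sum]
  exact integral_finsetSum s fun a ha => int1 phi0_cont phi0_compact (hF a ha).continuous t x

/-- (g) -/
theorem M_const_mul (c : ℝ) (f : Eu k → ℝ) (t : ℝ) (x : Eu k) :
    M t (fun y => c * f y) x = c * M t f x := by
  have e : ∀ z : Eu k, phi0 z * (c * f (x - t • z)) = c * (phi0 z * f (x - t • z)) := fun z => by
    ring
  simp only [M, e]
  exact integral_const_mul _ _

/-- the mollification only increases the support by `2 t` -/
theorem M_eq_zero (ht : 0 ≤ t) {x : Eu k} (h : ∀ y, ‖y - x‖ ≤ 2 * t → f y = 0) :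
    M t f x = 0 := by
  rw [M_congr (g := fun _ => 0) ht h]
  simp [M]

/-- pointwise bound -/
theorem M_abs_le (ht : 0 ≤ t) {x : Eu k} {C : ℝ}
    (h : ∀ y, ‖y - x‖ ≤ 2 * t → |f y| ≤ C) : |M t f x| ≤ C := by
  have h0 : ∫ z : Eu k, phi0 z * C = C := by rw [integral_mul_const, phi0_integral, one_mul]
  rw [← h0, ← Real.norm_eq_abs]
  refine norm_integral_le_of_norm_le ((Test.integrable phi0_test).mul_const C)
    (Eventually.of_forall fun z => ?_)
  rw [Real.norm_eq_abs, abs_mul, abs_of_nonneg (phi0_nonneg z)]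
  by_cases hz : 2 ≤ ‖z‖
  · rw [phi0_support hz, zero_mul, zero_mul]
  · refine mul_le_mul_of_nonneg_left (h _ ?_) (phi0_nonneg z)
    rw [sub_sub_cancel_left, norm_neg, norm_smul, Real.norm_eq_abs, abs_of_nonneg ht]
    nlinarith [not_le.mp hz]

end

end Vale.Agent.P262.H847.Fr
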