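import Vale.Agent.P262.H847.Conv

/-!
# The class `Good` of smooth strongly concave functions with bounded higher derivatives
-/

namespace Vale.Agent.P262.H847.Reg

open MeasureTheory Set Filter Topology
open scoped ContDiff Convolution InnerProductSpace

variable {E : Type} [NormedAddCommGroup E] [InnerProductSpace ℝ E] [FiniteDimensional ℝ E]
  [MeasurableSpace E] [BorelSpace E]

omit [FiniteDimensional ℝ E] [MeasurableSpace E] [BorelSpace E] in
/-- Smooth functions, all derivatives of order at least two bounded, strongly concave. -/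
structure Good (n : E → ℝ) : Prop where
  smooth : ContDiff ℝ ∞ n
  bdd : ∀ j : ℕ, 2 ≤ j → ∃ C : ℝ, ∀ x, ‖iteratedFDeriv ℝ j n x‖ ≤ C
  conc : ∃ δ : ℝ, 0 < δ ∧ ∀ x v, fderiv ℝ (fderiv ℝ n) x v v ≤ -δ * ‖v‖ ^ 2

section
omit [FiniteDimensional ℝ E] [MeasurableSpace E] [BorelSpace E]

lemma fderiv_normsq : fderiv ℝ (fun x : E => ‖x‖ ^ 2) = fun x => (2 : ℝ) • innerSL ℝ x := by
  funext x
  rw [(hasStrictFDerivAt_norm_sq x).hasFDerivAt.fderiv]
  exact (Nat.cast_smul_eq_nsmul ℝ 2 _).symm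

lemma fderiv2_normsq (x : E) : fderiv ℝ (fderiv ℝ (fun x : E => ‖x‖ ^ 2)) x
    = (2 : ℝ) • (innerSL ℝ : E →L[ℝ] E →L[ℝ] ℝ) := by
  rw [fderiv_normsq]
  exact ((innerSL ℝ : E →L[ℝ] E →L[ℝ] ℝ).hasFDerivAt.const_smul (2:ℝ)).fderiv

lemma normsq_bdd (j : ℕ) (hj : 2 ≤ j) :
    ∃ C : ℝ, ∀ x : E, ‖iteratedFDeriv ℝ j (fun x : E => ‖x‖ ^ 2) x‖ ≤ C := by
  obtain ⟨i, rfl⟩ : ∃ i, j = i + 1 + 1 := ⟨j - 2, by omega⟩
  have e : fderiv ℝ (fderiv ℝ (fun x : E => ‖x‖ ^ 2))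
      = fun _ => (2 : ℝ) • (innerSL ℝ : E →L[ℝ] E →L[ℝ] ℝ) := funext fderiv2_normsq
  rcases Nat.eq_zero_or_pos i with rfl | hi
  · refine ⟨‖(2 : ℝ) • (innerSL ℝ : E →L[ℝ] E →L[ℝ] ℝ)‖, fun x => ?_⟩
    rw [← norm_iteratedFDeriv_fderiv, ← norm_iteratedFDeriv_fderiv, e, norm_iteratedFDeriv_zero]
  · refine ⟨0, fun x => ?_⟩
    rw [← norm_iteratedFDeriv_fderiv, ← norm_iteratedFDeriv_fderiv, e,
      iteratedFDeriv_const_of_ne hi.ne']
    simp

/-- A smooth concave function has nonpositive second derivatives. -/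
lemma concave_second {n : E → ℝ} (hn : ContDiff ℝ ∞ n) (hc : ConcaveOn ℝ univ n) (x v : E) :
    fderiv ℝ (fderiv ℝ n) x v v ≤ 0 := by
  have hd : Differentiable ℝ n := hn.differentiable (by simp)
  have hf' : ContDiff ℝ ∞ (fderiv ℝ n) := hn.fderiv_right (by norm_num)
  have hd' : Differentiable ℝ (fderiv ℝ n) := hf'.differentiable (by simp)
  set φ : ℝ → ℝ := fun t => n (x + t • v) with hφ
  have hl : ∀ t : ℝ, HasDerivAt (fun t : ℝ => x + t • v) v t := by
    intro t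
    simpa using ((hasDerivAt_id t).smul_const v).const_add x
  have h1 : ∀ t : ℝ, HasDerivAt φ (fderiv ℝ n (x + t • v) v) t := fun t =>
    (hd _).hasFDerivAt.comp_hasDerivAt t (hl t)
  have h2 : ∀ t : ℝ, HasDerivAt (fun t : ℝ => fderiv ℝ n (x + t • v) v)
      (fderiv ℝ (fderiv ℝ n) (x + t • v) v v) t := by
    intro t
    have h3 := (hd' (x + t • v)).hasFDerivAt.comp_hasDerivAt t (hl t)
    exact h3.clm_apply (hasDerivAt_const t v) |>.congr_deriv (by simp)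
  have hφc : ConcaveOn ℝ univ φ := by
    refine ⟨convex_univ, fun s _ t _ a b ha hb hab => ?_⟩
    have := hc.2 (mem_univ (x + s • v)) (mem_univ (x + t • v)) ha hb hab
    have e : a • (x + s • v) + b • (x + t • v) = x + (a • s + b • t : ℝ) • v := by
      have e0 : a • (x + s • v) + b • (x + t • v) = (a + b) • x + (a * s + b * t) • v := by
        module
      rw [e0, hab, one_smul, smul_eq_mul, smul_eq_mul]
    rwa [e] at this
  have h4 : Antitone (deriv φ) := by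
    have := hφc.antitoneOn_deriv (fun t _ => (h1 t).differentiableAt)
    rwa [antitoneOn_univ] at this
  have e5 : deriv φ = fun t => fderiv ℝ n (x + t • v) v := funext fun t => (h1 t).deriv
  rw [e5] at h4
  have h6 := h2 0
  simp only [zero_smul, add_zero] at h6
  have h7 := h4.deriv_nonpos (x := 0)
  rwa [h6.deriv] at h7

end

/-- Mollification of a concave Lipschitz function minus `δ ‖x‖ ^ 2` is `Good`. -/
lemma good_mol {ρ g : E → ℝ} (hρ : ContDiff ℝ ∞ ρ) (hc : HasCompactSupport ρ)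
    (h0 : ∀ x, 0 ≤ ρ x) {K : ℝ} (hK : ∀ x y, |g x - g y| ≤ K * ‖x - y‖) (hg : Continuous g)
    (hcv : ConcaveOn ℝ univ g) {δ : ℝ} (hδ : 0 < δ) :
    Good (fun x => mol ρ g x - δ * ‖x‖ ^ 2) := by
  have hs := mol_contDiff hρ hc hg
  have hq : ContDiff ℝ ∞ (fun x : E => δ * ‖x‖ ^ 2) := contDiff_const.mul (contDiff_norm_sq ℝ)
  have hq0 : ContDiff ℝ ∞ (fun x : E => ‖x‖ ^ 2) := contDiff_norm_sq ℝ
  refine ⟨hs.sub hq, fun j hj => ?_, δ * 2, by positivity, fun x v => ?_⟩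
  · obtain ⟨i, rfl⟩ : ∃ i, j = i + 1 := ⟨j - 1, by omega⟩
    obtain ⟨C, hC⟩ := mol_bound hρ hc hK hg i
    obtain ⟨D, hD⟩ := normsq_bdd (E := E) (i + 1) hj
    refine ⟨C + δ * D, fun x => ?_⟩
    have e1 : (fun x => mol ρ g x - δ * ‖x‖ ^ 2) = mol ρ g - fun x : E => δ * ‖x‖ ^ 2 := rfl
    have e2 : (fun x : E => δ * ‖x‖ ^ 2) = δ • fun x : E => ‖x‖ ^ 2 := rfl
    rw [e1, iteratedFDeriv_sub_apply ((hs.of_le (by exact_mod_cast le_top)).contDiffAt)
      ((hq.of_le (by exact_mod_cast le_top)).contDiffAt), e2,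
      iteratedFDeriv_const_smul_apply ((hq0.of_le (by exact_mod_cast le_top)).contDiffAt)]
    refine (norm_sub_le _ _).trans (add_le_add (hC x) ?_)
    rw [norm_smul, Real.norm_eq_abs, abs_of_pos hδ]
    exact mul_le_mul_of_nonneg_left (hD x) hδ.le
  · have e1 : fderiv ℝ (fun x => mol ρ g x - δ * ‖x‖ ^ 2)
        = fderiv ℝ (mol ρ g) - δ • fderiv ℝ (fun x : E => ‖x‖ ^ 2) := by
      funext y
      have h1 : HasFDerivAt (mol ρ g) (fderiv ℝ (mol ρ g) y) y :=
        (hs.differentiable (by simp) y).hasFDerivAt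
      have h2 : HasFDerivAt (fun x : E => ‖x‖ ^ 2) (fderiv ℝ (fun x : E => ‖x‖ ^ 2) y) y :=
        (hq0.differentiable (by simp) y).hasFDerivAt
      exact (h1.sub (h2.const_mul δ)).fderiv
    have e2 : fderiv ℝ (fderiv ℝ (fun x => mol ρ g x - δ * ‖x‖ ^ 2)) x
        = fderiv ℝ (fderiv ℝ (mol ρ g)) x - δ • fderiv ℝ (fderiv ℝ (fun x : E => ‖x‖ ^ 2)) x := by
      rw [e1]
      have hs' : ContDiff ℝ ∞ (fderiv ℝ (mol ρ g)) := hs.fderiv_right (by norm_num)
      have hq' : ContDiff ℝ ∞ (fderiv ℝ (fun x : E => ‖x‖ ^ 2)) := hq0.fderiv_right (by norm_num)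
      have h1 := (hs'.differentiable (by simp) x).hasFDerivAt
      have h2 := (hq'.differentiable (by simp) x).hasFDerivAt
      exact (h1.sub (h2.const_smul δ)).fderiv
    rw [e2, fderiv2_normsq]
    have h3 := concave_second hs (mol_concave hρ.continuous hc h0 hg hcv) x v
    have h4 : (innerSL ℝ : E →L[ℝ] E →L[ℝ] ℝ) v v = ‖v‖ ^ 2 := by
      rw [innerSL_apply_apply, real_inner_self_eq_norm_sq]
    simp only [sub_apply, smul_apply, smul_eq_mul]
    rw [h4]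
    linarith

end Vale.Agent.P262.H847.Reg
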