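import Mathlib

/-!
# A maximum principle (Borell's proof of the Ehrhard inequality, dimension one)
-/

namespace Vale.Agent.P262.H847

open MeasureTheory ProbabilityTheory Set Filter Topology

/-- `U σ x` is a bounded solution, with bounded `x`-derivative, of
`∂_σ U = σ (U_xx - U U_x²)`. -/
structure Sol (M L : ℝ) (U Ux Uxx : ℝ → ℝ → ℝ) : Prop where
  cont : Continuous (fun p : ℝ × ℝ => U p.1 p.2)
  bd : ∀ s x, |U s x| ≤ M
  dx : ∀ s x, HasDerivAt (fun y => U s y) (Ux s x) x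
  dxx : ∀ s x, HasDerivAt (fun y => Ux s y) (Uxx s x) x
  ds : ∀ s x, HasDerivAt (fun t => U t x) (s * (Uxx s x - U s x * Ux s x ^ 2)) s
  bdx : ∀ s x, |Ux s x| ≤ L

lemma second_deriv_nonneg {g g' : ℝ → ℝ} {c : ℝ} (hg : ∀ s, HasDerivAt g (g' s) s)
    (hg' : HasDerivAt g' c 0) (hmin : ∀ s, g 0 ≤ g s) : 0 ≤ c := by
  by_contra hc
  push Not at hc
  have h0 : g' 0 = 0 := by
    have : IsLocalMin g 0 := Filter.Eventually.of_forall hmin
    exact this.hasDerivAt_eq_zero (hg 0)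
  have h1 : Tendsto (slope g' 0) (𝓝[>] 0) (𝓝 c) :=
    (hasDerivAt_iff_tendsto_slope.mp hg').mono_left
      (nhdsWithin_mono _ (fun x hx => (ne_of_gt hx)))
  have h2 : ∀ᶠ s in 𝓝[>] (0:ℝ), slope g' 0 s < 0 := h1.eventually_lt_const hc
  have h3 : ∀ᶠ s in 𝓝[>] (0:ℝ), g' s < 0 := by
    filter_upwards [h2, self_mem_nhdsWithin] with s hs hs0
    rw [slope_def_field, h0] at hs
    simp only [sub_zero] at hs
    have hs0' : (0:ℝ) < s := hs0
    have := mul_neg_of_neg_of_pos hs hs0'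
    rwa [div_mul_cancel₀ _ hs0'.ne'] at this
  obtain ⟨δ, hδ, hδ'⟩ := (mem_nhdsGT_iff_exists_Ioo_subset).mp h3
  have hδ0 : (0:ℝ) < δ := hδ
  have hlt : g (δ / 2) < g 0 := by
    obtain ⟨ξ, hξ, hξ'⟩ := exists_hasDerivAt_eq_slope g g' (by linarith : (0:ℝ) < δ / 2)
      (fun x _ => (hg x).continuousAt.continuousWithinAt) (fun x _ => hg x)
    have hneg : g' ξ < 0 := hδ' ⟨hξ.1, by linarith [hξ.2]⟩
    rw [hξ'] at hneg
    have h5 : g (δ / 2) - g 0 < 0 := by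
      by_contra h6
      push Not at h6
      have : 0 ≤ (g (δ / 2) - g 0) / (δ / 2 - 0) := div_nonneg h6 (by linarith)
      linarith
    linarith
  exact absurd (hmin (δ / 2)) (not_le.mpr hlt)

lemma left_deriv_nonpos {k : ℝ → ℝ} {d s : ℝ} (hs : 0 < s) (hk : HasDerivAt k d s)
    (hmin : ∀ t ∈ Icc 0 s, k s ≤ k t) : d ≤ 0 := by
  have h1 : Tendsto (slope k s) (𝓝[<] s) (𝓝 d) :=
    (hasDerivAt_iff_tendsto_slope.mp hk).mono_left
      (nhdsWithin_mono _ (fun x hx => (ne_of_lt hx)))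
  refine le_of_tendsto h1 ?_
  filter_upwards [Ioo_mem_nhdsLT hs] with t ht
  rw [slope_def_field]
  apply div_nonpos_of_nonneg_of_nonpos
  · have := hmin t ⟨ht.1.le, ht.2.le⟩; linarith
  · linarith [ht.2]

variable {M L a b : ℝ} {U Ux Uxx V Vx Vxx W Wx Wxx : ℝ → ℝ → ℝ}

/-- the penalised defect -/
noncomputable def Gp (a b e K : ℝ) (U V W : ℝ → ℝ → ℝ) (s x y : ℝ) : ℝ :=
  W s (a * x + b * y) - a * U s x - b * V s y + e ^ 2 * (x ^ 2 + y ^ 2) + e * K * s ^ 2 / 2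

lemma Gp_cont (a b e K : ℝ) (HU : Sol M L U Ux Uxx) (HV : Sol M L V Vx Vxx)
    (HW : Sol M L W Wx Wxx) :
    Continuous (fun p : ℝ × ℝ × ℝ => Gp a b e K U V W p.1 p.2.1 p.2.2) := by
  have c1 : Continuous (fun p : ℝ × ℝ × ℝ => W p.1 (a * p.2.1 + b * p.2.2)) :=
    HW.cont.comp (f := fun p : ℝ × ℝ × ℝ => (p.1, a * p.2.1 + b * p.2.2)) (by fun_prop)
  have c2 : Continuous (fun p : ℝ × ℝ × ℝ => U p.1 p.2.1) :=
    HU.cont.comp (f := fun p : ℝ × ℝ × ℝ => (p.1, p.2.1)) (by fun_prop)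
  have c3 : Continuous (fun p : ℝ × ℝ × ℝ => V p.1 p.2.2) :=
    HV.cont.comp (f := fun p : ℝ × ℝ × ℝ => (p.1, p.2.2)) (by fun_prop)
  unfold Gp
  exact (((c1.sub (c2.const_mul a)).sub (c3.const_mul b)).add (by fun_prop)).add (by fun_prop)

lemma Gp_dx (e K : ℝ) (HU : Sol M L U Ux Uxx) (HW : Sol M L W Wx Wxx) (s x y : ℝ) :
    HasDerivAt (fun t => Gp a b e K U V W s t y)
        (a * Wx s (a * x + b * y) - a * Ux s x + e ^ 2 * (2 * x)) x := by
  have d1 : HasDerivAt (fun t => W s (a * t + b * y)) (a * Wx s (a * x + b * y)) x := by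
    have := (HW.dx s (a * x + b * y)).comp x
      (((hasDerivAt_id x).const_mul a).add_const (b * y))
    exact this.congr_deriv (by ring)
  have d2 := (HU.dx s x).const_mul a
  have d3 : HasDerivAt (fun t : ℝ => e ^ 2 * (t ^ 2 + y ^ 2)) (e ^ 2 * (2 * x)) x := by
    have := ((hasDerivAt_pow 2 x).add_const (y ^ 2)).const_mul (e ^ 2)
    exact this.congr_deriv (by push_cast; ring)
  exact (((d1.sub d2).sub_const (b * V s y)).add d3).add_const (e * K * s ^ 2 / 2)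

lemma Gp_dy (e K : ℝ) (HV : Sol M L V Vx Vxx) (HW : Sol M L W Wx Wxx) (s x y : ℝ) :
    HasDerivAt (fun t => Gp a b e K U V W s x t)
        (b * Wx s (a * x + b * y) - b * Vx s y + e ^ 2 * (2 * y)) y := by
  have d1 : HasDerivAt (fun t => W s (a * x + b * t)) (b * Wx s (a * x + b * y)) y := by
    have := (HW.dx s (a * x + b * y)).comp y
      (((hasDerivAt_id y).const_mul b).const_add (a * x))
    exact this.congr_deriv (by ring)
  have d2 := (HV.dx s y).const_mul b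
  have d3 : HasDerivAt (fun t : ℝ => e ^ 2 * (x ^ 2 + t ^ 2)) (e ^ 2 * (2 * y)) y := by
    have := ((hasDerivAt_pow 2 y).const_add (x ^ 2)).const_mul (e ^ 2)
    exact this.congr_deriv (by push_cast; ring)
  exact (((d1.sub_const (a * U s x)).sub d2).add d3).add_const (e * K * s ^ 2 / 2)

lemma Gp_d1 (hab : a + b = 1) (e K : ℝ) (HU : Sol M L U Ux Uxx) (HV : Sol M L V Vx Vxx)
    (HW : Sol M L W Wx Wxx) (s x y t : ℝ) :
    HasDerivAt (fun t => Gp a b e K U V W s (x + t) (y + t))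
      (Wx s (a * x + b * y + t) - a * Ux s (x + t) - b * Vx s (y + t)
        + e ^ 2 * (2 * (x + t) + 2 * (y + t))) t := by
  have e1 : ∀ t, a * (x + t) + b * (y + t) = a * x + b * y + t := by
    intro t
    have : a * (x + t) + b * (y + t) = a * x + b * y + (a + b) * t := by ring
    rw [this, hab, one_mul]
  have d0 : HasDerivAt (fun t : ℝ => a * x + b * y + t) 1 t :=
    (hasDerivAt_id t).const_add _
  have dx0 : HasDerivAt (fun t : ℝ => x + t) 1 t := (hasDerivAt_id t).const_add _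
  have dy0 : HasDerivAt (fun t : ℝ => y + t) 1 t := (hasDerivAt_id t).const_add _
  have d1 := (HW.dx s (a * x + b * y + t)).comp t d0
  have d2 := ((HU.dx s (x + t)).comp t dx0).const_mul a
  have d3 := ((HV.dx s (y + t)).comp t dy0).const_mul b
  have d4 := ((dx0.pow 2).add (dy0.pow 2)).const_mul (e ^ 2)
  have := (((d1.sub d2).sub d3).add d4).add_const (e * K * s ^ 2 / 2)
  refine (this.congr_deriv ?_).congr_of_eventuallyEq (Filter.Eventually.of_forall ?_)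
  · push_cast; ring
  · intro t'
    simp only [Gp, Function.comp_def, Pi.add_apply, Pi.sub_apply, Pi.pow_apply]
    rw [e1]

lemma shift_deriv {f : ℝ → ℝ} {c z : ℝ} (h : HasDerivAt f c z) :
    HasDerivAt (fun t : ℝ => f (z + t)) c 0 := by
  have h1 : HasDerivAt (fun t : ℝ => z + t) 1 0 := (hasDerivAt_id (0:ℝ)).const_add _
  have h2 : HasDerivAt f c ((fun t : ℝ => z + t) 0) := by simpa using h
  exact (h2.comp (0:ℝ) h1).congr_deriv (by ring)

lemma Gp_d2 (e : ℝ) (HU : Sol M L U Ux Uxx) (HV : Sol M L V Vx Vxx)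
    (HW : Sol M L W Wx Wxx) (s x y : ℝ) :
    HasDerivAt (fun t => Wx s (a * x + b * y + t) - a * Ux s (x + t) - b * Vx s (y + t)
        + e ^ 2 * (2 * (x + t) + 2 * (y + t)))
      (Wxx s (a * x + b * y) - a * Uxx s x - b * Vxx s y + 4 * e ^ 2) 0 := by
  have dx0 : HasDerivAt (fun t : ℝ => x + t) 1 0 := (hasDerivAt_id (0:ℝ)).const_add _
  have dy0 : HasDerivAt (fun t : ℝ => y + t) 1 0 := (hasDerivAt_id (0:ℝ)).const_add _
  have d1 := shift_deriv (HW.dxx s (a * x + b * y))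
  have d2 := shift_deriv (HU.dxx s x)
  have d3 := shift_deriv (HV.dxx s y)
  have d4 := ((dx0.const_mul 2).add (dy0.const_mul 2)).const_mul (e ^ 2)
  have := ((d1.sub (d2.const_mul a)).sub (d3.const_mul b)).add d4
  exact this.congr_deriv (by ring)

lemma Gp_ds (e K : ℝ) (HU : Sol M L U Ux Uxx) (HV : Sol M L V Vx Vxx)
    (HW : Sol M L W Wx Wxx) (s x y : ℝ) :
    HasDerivAt (fun t => Gp a b e K U V W t x y)
      (s * (Wxx s (a * x + b * y) - W s (a * x + b * y) * Wx s (a * x + b * y) ^ 2)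
      - a * (s * (Uxx s x - U s x * Ux s x ^ 2)) - b * (s * (Vxx s y - V s y * Vx s y ^ 2))
      + e * K * s) s := by
  have d1 := HW.ds s (a * x + b * y)
  have d2 := (HU.ds s x).const_mul a
  have d3 := (HV.ds s y).const_mul b
  have d4 : HasDerivAt (fun t : ℝ => e * K * t ^ 2 / 2) (e * K * s) s := by
    have := ((hasDerivAt_pow 2 s).const_mul (e * K)).div_const 2
    exact this.congr_deriv (by push_cast; ring)
  exact (((d1.sub d2).sub d3).add_const (e ^ 2 * (x ^ 2 + y ^ 2))).add d4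

lemma sq_diff_bound {a p q L M e x u : ℝ} (he : 0 < e) (hL : 0 ≤ L) (hM : 0 ≤ M)
    (h4 : a * p - a * q = -(e ^ 2 * (2 * x))) (hp : |p| ≤ L) (hq : |q| ≤ L)
    (hx : e * |x| ≤ 2 * M + 1) (hu : |u| ≤ M) :
    u * (a * (p ^ 2 - q ^ 2)) ≤ M * (4 * L * (e * (2 * M + 1))) := by
  have hpL := abs_le.mp hp
  have hqL := abs_le.mp hq
  have hq2 : |a * (p ^ 2 - q ^ 2)| ≤ 4 * L * (e * (2 * M + 1)) := by
    have h3 : a * (p ^ 2 - q ^ 2) = (a * p - a * q) * (p + q) := by ring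
    rw [h3, h4, abs_mul, abs_neg, abs_mul, abs_mul, abs_of_pos (by positivity : (0:ℝ) < e ^ 2)]
    have h5 : |p + q| ≤ 2 * L := by
      rw [abs_le]; constructor <;> linarith [hpL.1, hpL.2, hqL.1, hqL.2]
    have h6 : e ^ 2 * (|(2:ℝ)| * |x|) = 2 * (e * (e * |x|)) := by
      rw [abs_of_pos (by norm_num : (0:ℝ) < 2)]; ring
    rw [h6]
    have h7 : e * (e * |x|) ≤ e * (2 * M + 1) := mul_le_mul_of_nonneg_left hx he.le
    have h8 : 0 ≤ e * (e * |x|) := by positivity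
    calc 2 * (e * (e * |x|)) * |p + q| ≤ 2 * (e * (e * |x|)) * (2 * L) := by
          apply mul_le_mul_of_nonneg_left h5; linarith
      _ ≤ 2 * (e * (2 * M + 1)) * (2 * L) := by
          apply mul_le_mul_of_nonneg_right _ (by linarith); linarith
      _ = 4 * L * (e * (2 * M + 1)) := by ring
  calc u * (a * (p ^ 2 - q ^ 2)) ≤ |u * (a * (p ^ 2 - q ^ 2))| := le_abs_self _
      _ = |u| * |a * (p ^ 2 - q ^ 2)| := abs_mul _ _
      _ ≤ M * (4 * L * (e * (2 * M + 1))) := mul_le_mul hu hq2 (abs_nonneg _) hM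

lemma final_alg {a b e M L s w u v p q r wxx uxx vxx x y : ℝ} (he : 0 < e) (he1 : e ≤ 1)
    (hL : 0 ≤ L) (hM : 0 ≤ M) (hs : 0 < s) (hC : w - a * u - b * v ≤ 0)
    (hx1 : a * p - a * q + e ^ 2 * (2 * x) = 0) (hy1 : b * p - b * r + e ^ 2 * (2 * y) = 0)
    (h2 : 0 ≤ wxx - a * uxx - b * vxx + 4 * e ^ 2)
    (hs1 : s * (wxx - w * p ^ 2) - a * (s * (uxx - u * q ^ 2)) - b * (s * (vxx - v * r ^ 2))
      + e * (5 + 8 * M * L * (2 * M + 1)) * s ≤ 0)
    (hp : |p| ≤ L) (hq : |q| ≤ L) (hr : |r| ≤ L) (hu : |u| ≤ M) (hv : |v| ≤ M)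
    (hx : e * |x| ≤ 2 * M + 1) (hy : e * |y| ≤ 2 * M + 1) : False := by
  have t1 := sq_diff_bound (a := a) (x := x) he hL hM (by linarith) hp hq hx hu
  have t2 := sq_diff_bound (a := b) (x := y) he hL hM (by linarith) hp hr hy hv
  have t3 : p ^ 2 * (w - a * u - b * v) ≤ 0 :=
    mul_nonpos_of_nonneg_of_nonpos (sq_nonneg _) hC
  set K : ℝ := 5 + 8 * M * L * (2 * M + 1) with hK
  have hs2 : (wxx - a * uxx - b * vxx)
      - (w * p ^ 2 - a * (u * q ^ 2) - b * (v * r ^ 2)) + e * K ≤ 0 := by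
    have h3 : s * ((wxx - a * uxx - b * vxx)
      - (w * p ^ 2 - a * (u * q ^ 2) - b * (v * r ^ 2)) + e * K) ≤ 0 := by
      calc _ = s * (wxx - w * p ^ 2) - a * (s * (uxx - u * q ^ 2)) - b * (s * (vxx - v * r ^ 2))
            + e * K * s := by ring
        _ ≤ 0 := hs1
    exact nonpos_of_mul_nonpos_right h3 hs
  have hfin : e * K ≤ 4 * e ^ 2 + 2 * (M * (4 * L * (e * (2 * M + 1)))) := by
    have h3 : w * p ^ 2 - a * (u * q ^ 2) - b * (v * r ^ 2)
        = p ^ 2 * (w - a * u - b * v)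
          + u * (a * (p ^ 2 - q ^ 2)) + v * (b * (p ^ 2 - r ^ 2)) := by ring
    linarith
  have h5 : e * K ≤ e * (4 + 8 * M * L * (2 * M + 1)) := by
    calc e * K ≤ 4 * e ^ 2 + 2 * (M * (4 * L * (e * (2 * M + 1)))) := hfin
      _ ≤ 4 * e + 2 * (M * (4 * L * (e * (2 * M + 1)))) := by nlinarith
      _ = e * (4 + 8 * M * L * (2 * M + 1)) := by ring
  have h6 := le_of_mul_le_mul_left h5 he
  rw [hK] at h6
  linarith

lemma core_lower (ha : 0 < a) (hb : 0 < b) (hab : a + b = 1)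
    (HU : Sol M L U Ux Uxx) (HV : Sol M L V Vx Vxx) (HW : Sol M L W Wx Wxx) (s x y : ℝ) :
    -(2 * M) ≤ W s (a * x + b * y) - a * U s x - b * V s y := by
  have h1 := abs_le.mp (HW.bd s (a * x + b * y))
  have h2 := abs_le.mp (HU.bd s x)
  have h3 := abs_le.mp (HV.bd s y)
  have h4 := mul_le_mul_of_nonneg_left h2.2 ha.le
  have h5 := mul_le_mul_of_nonneg_left h3.2 hb.le
  have h6 : a * M + b * M = M := by rw [← add_mul, hab, one_mul]
  linarith

lemma abs_bound {M e x y : ℝ} (hM : 0 ≤ M)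
    (h : e ^ 2 * (x ^ 2 + y ^ 2) ≤ 2 * M) : e * |x| ≤ 2 * M + 1 := by
  have h1 : (e * |x|) ^ 2 ≤ 2 * M := by
    rw [mul_pow, sq_abs]
    nlinarith [mul_nonneg (sq_nonneg e) (sq_nonneg y)]
  by_contra h2
  push Not at h2
  nlinarith [sq_nonneg (e * |x| - 1)]

lemma pen_nonneg (ha : 0 < a) (hb : 0 < b) (hab : a + b = 1)
    (HU : Sol M L U Ux Uxx) (HV : Sol M L V Vx Vxx) (HW : Sol M L W Wx Wxx)
    (h0 : ∀ x y, a * U 0 x + b * V 0 y ≤ W 0 (a * x + b * y))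
    {e : ℝ} (he : 0 < e) (he1 : e ≤ 1) {s₀ : ℝ} (hs₀ : s₀ ∈ Icc (0:ℝ) 1) (x₀ y₀ : ℝ) :
    0 ≤ Gp a b e (5 + 8 * M * L * (2 * M + 1)) U V W s₀ x₀ y₀ := by
  have hM : 0 ≤ M := le_trans (abs_nonneg _) (HU.bd 0 0)
  have hL : 0 ≤ L := le_trans (abs_nonneg _) (HU.bdx 0 0)
  set K : ℝ := 5 + 8 * M * L * (2 * M + 1) with hK
  have hK0 : 0 < K := by positivity
  by_contra hneg
  push Not at hneg
  have hCl := core_lower ha hb hab HU HV HW
  have hGneg : ∀ s x y, Gp a b e K U V W s x y < 0 → e ^ 2 * (x ^ 2 + y ^ 2) ≤ 2 * M := by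
    intro s x y h
    have h1 := hCl s x y
    have h2 : 0 ≤ e * K * s ^ 2 / 2 := by positivity
    unfold Gp at h
    linarith
  set R : ℝ := (2 * M + 1) / e with hR
  have hRbox : ∀ x y : ℝ, e ^ 2 * (x ^ 2 + y ^ 2) ≤ 2 * M → x ∈ Icc (-R) R ∧ y ∈ Icc (-R) R := by
    intro x y h
    have h1 := abs_bound hM h
    have h2 : e * |y| ≤ 2 * M + 1 := abs_bound hM (by rw [add_comm]; exact h)
    have h3 : |x| ≤ R := by rw [hR, le_div_iff₀ he]; linarith
    have h4 : |y| ≤ R := by rw [hR, le_div_iff₀ he]; linarith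
    exact ⟨abs_le.mp h3, abs_le.mp h4⟩
  have hcomp : IsCompact ((Icc (0:ℝ) 1) ×ˢ ((Icc (-R) R) ×ˢ (Icc (-R) R))) :=
    isCompact_Icc.prod (isCompact_Icc.prod isCompact_Icc)
  have hin0 := hRbox x₀ y₀ (hGneg _ _ _ hneg)
  obtain ⟨⟨s, x, y⟩, hmem, hmin⟩ := hcomp.exists_isMinOn
    ⟨(s₀, x₀, y₀), ⟨hs₀, hin0.1, hin0.2⟩⟩ (Gp_cont a b e K HU HV HW).continuousOn
  have hs : s ∈ Icc (0:ℝ) 1 := hmem.1
  have hmin' : ∀ s' x' y', s' ∈ Icc (0:ℝ) 1 → x' ∈ Icc (-R) R → y' ∈ Icc (-R) R →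
      Gp a b e K U V W s x y ≤ Gp a b e K U V W s' x' y' :=
    fun s' x' y' h1 h2 h3 => hmin (show (s', x', y') ∈ _ from ⟨h1, h2, h3⟩)
  have hGp1 : Gp a b e K U V W s x y < 0 :=
    lt_of_le_of_lt (hmin' _ _ _ hs₀ hin0.1 hin0.2) hneg
  -- global minimality
  have hglob : ∀ s' ∈ Icc (0:ℝ) 1, ∀ x' y',
      Gp a b e K U V W s x y ≤ Gp a b e K U V W s' x' y' := by
    intro s' hs' x' y'
    by_cases h : Gp a b e K U V W s' x' y' < 0
    · have hin := hRbox x' y' (hGneg _ _ _ h)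
      exact hmin' _ _ _ hs' hin.1 hin.2
    · push Not at h
      linarith
  -- `s > 0`
  have hspos : 0 < s := by
    rcases hs.1.lt_or_eq with h | h
    · exact h
    · exfalso
      have h1 := h0 x y
      have h2 : 0 ≤ e ^ 2 * (x ^ 2 + y ^ 2) := by positivity
      rw [← h] at hGp1
      unfold Gp at hGp1
      linarith
  have hx1 : a * Wx s (a * x + b * y) - a * Ux s x + e ^ 2 * (2 * x) = 0 := by
    have hl : IsLocalMin (fun t => Gp a b e K U V W s t y) x :=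
      Filter.Eventually.of_forall (fun t => hglob s hs t y)
    exact hl.hasDerivAt_eq_zero (Gp_dx e K HU HW s x y)
  have hy1 : b * Wx s (a * x + b * y) - b * Vx s y + e ^ 2 * (2 * y) = 0 := by
    have hl : IsLocalMin (fun t => Gp a b e K U V W s x t) y :=
      Filter.Eventually.of_forall (fun t => hglob s hs x t)
    exact hl.hasDerivAt_eq_zero (Gp_dy e K HV HW s x y)
  have h2 : 0 ≤ Wxx s (a * x + b * y) - a * Uxx s x - b * Vxx s y + 4 * e ^ 2 := by
    apply second_deriv_nonneg (fun t => Gp_d1 hab e K HU HV HW s x y t)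
      (Gp_d2 e HU HV HW s x y)
    intro t
    simpa using hglob s hs (x + t) (y + t)
  have hs1 := left_deriv_nonpos (k := fun t => Gp a b e K U V W t x y) hspos
    (Gp_ds e K HU HV HW s x y) (fun t ht => hglob t ⟨ht.1, ht.2.trans hs.2⟩ x y)
  have hbox : e ^ 2 * (x ^ 2 + y ^ 2) ≤ 2 * M := hGneg _ _ _ hGp1
  have hCneg : W s (a * x + b * y) - a * U s x - b * V s y ≤ 0 := by
    have h3 : 0 ≤ e * K * s ^ 2 / 2 := by positivity
    have h4 : 0 ≤ e ^ 2 * (x ^ 2 + y ^ 2) := by positivity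
    unfold Gp at hGp1
    linarith
  exact final_alg he he1 hL hM hspos hCneg hx1 hy1 h2 hs1 (HW.bdx _ _) (HU.bdx _ _)
    (HV.bdx _ _) (HU.bd _ _) (HV.bd _ _) (abs_bound hM hbox)
    (abs_bound hM (by rw [add_comm]; exact hbox))

theorem max_principle (ha : 0 < a) (hb : 0 < b) (hab : a + b = 1)
    (HU : Sol M L U Ux Uxx) (HV : Sol M L V Vx Vxx) (HW : Sol M L W Wx Wxx)
    (h0 : ∀ x y, a * U 0 x + b * V 0 y ≤ W 0 (a * x + b * y))
    {s : ℝ} (hs : s ∈ Icc (0:ℝ) 1) (x y : ℝ) :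
    a * U s x + b * V s y ≤ W s (a * x + b * y) := by
  have hM : 0 ≤ M := le_trans (abs_nonneg _) (HU.bd 0 0)
  have hL : 0 ≤ L := le_trans (abs_nonneg _) (HU.bdx 0 0)
  set C := W s (a * x + b * y) - a * U s x - b * V s y with hC
  set Q := x ^ 2 + y ^ 2 + (5 + 8 * M * L * (2 * M + 1)) * s ^ 2 / 2 with hQ
  have hQ0 : 0 ≤ Q := by positivity
  have key : ∀ e : ℝ, 0 < e → e ≤ 1 → -(e * Q) ≤ C := by
    intro e he he1
    have h := pen_nonneg ha hb hab HU HV HW h0 he he1 hs x y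
    unfold Gp at h
    have h1 : e ^ 2 * (x ^ 2 + y ^ 2) ≤ e * (x ^ 2 + y ^ 2) :=
      mul_le_mul_of_nonneg_right (by nlinarith) (by positivity)
    have h2 : e * Q = e * (x ^ 2 + y ^ 2) + e * (5 + 8 * M * L * (2 * M + 1)) * s ^ 2 / 2 := by
      rw [hQ]; ring
    rw [h2]; linarith
  have hC0 : 0 ≤ C := by
    by_contra hneg
    push Not at hneg
    have h1 : 0 < -C / (2 * (Q + 1)) := div_pos (by linarith) (by linarith)
    have h2 := key (min 1 (-C / (2 * (Q + 1)))) (lt_min one_pos h1) (min_le_left _ _)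
    have h3 : min 1 (-C / (2 * (Q + 1))) * Q ≤ (-C / (2 * (Q + 1))) * Q :=
      mul_le_mul_of_nonneg_right (min_le_right _ _) hQ0
    have h4 : (-C / (2 * (Q + 1))) * Q ≤ -C / 2 := by
      rw [div_mul_eq_mul_div, div_le_div_iff₀ (by linarith) (by norm_num)]
      nlinarith
    linarith
  linarith

end Vale.Agent.P262.H847
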