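import Vale.Agent.P262.H847.Phi
import Vale.Agent.P262.H847.MaxP

/-!
# The heat semigroup in dimension one, in the variable `s = √t`
-/

namespace Vale.Agent.P262.H847

open MeasureTheory ProbabilityTheory Set Filter Topology

/-- `heat f s x = E f (x + s Z)` -/
noncomputable def heat (f : ℝ → ℝ) (s x : ℝ) : ℝ := ∫ z, f (x + s * z) ∂g1

/-- a bounded function with two bounded continuous derivatives -/
structure Nice (B C : ℝ) (f f' f'' : ℝ → ℝ) : Prop where
  d1 : ∀ x, HasDerivAt f (f' x) x
  d2 : ∀ x, HasDerivAt f' (f'' x) x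
  c2 : Continuous f''
  b0 : ∀ x, |f x| ≤ B
  b1 : ∀ x, |f' x| ≤ C
  b2 : ∀ x, |f'' x| ≤ C

lemma Nice.c0 {B C : ℝ} {f f' f'' : ℝ → ℝ} (h : Nice B C f f' f'') : Continuous f :=
  continuous_iff_continuousAt.mpr (fun x => (h.d1 x).continuousAt)

lemma Nice.c1 {B C : ℝ} {f f' f'' : ℝ → ℝ} (h : Nice B C f f' f'') : Continuous f' :=
  continuous_iff_continuousAt.mpr (fun x => (h.d2 x).continuousAt)

lemma integrable_abs_g1 : Integrable (fun z : ℝ => |z|) g1 := by
  have h : MemLp id 1 g1 := IsGaussian.memLp_id g1 1 (by simp)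
  exact (memLp_one_iff_integrable.mp h).abs

lemma integrable_bdd {B : ℝ} {f : ℝ → ℝ} (hf : Continuous f) (hB : ∀ x, |f x| ≤ B) :
    Integrable f g1 :=
  Integrable.of_bound hf.aestronglyMeasurable B (Eventually.of_forall hB)

lemma continuous_heat {B : ℝ} {f : ℝ → ℝ} (hf : Continuous f) (hB : ∀ x, |f x| ≤ B) :
    Continuous (fun p : ℝ × ℝ => heat f p.1 p.2) := by
  unfold heat
  apply continuous_of_dominated (bound := fun _ => B)
  · intro p
    exact (hf.comp (by fun_prop)).aestronglyMeasurable
  · intro p
    exact Eventually.of_forall (fun z => hB _)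
  · exact integrable_const _
  · exact Eventually.of_forall (fun z => hf.comp (by fun_prop))

lemma abs_heat_le {B : ℝ} {f : ℝ → ℝ} (hB : ∀ x, |f x| ≤ B) (s x : ℝ) : |heat f s x| ≤ B := by
  unfold heat
  have := norm_integral_le_of_norm_le_const (μ := g1) (f := fun z => f (x + s * z)) (C := B)
    (Eventually.of_forall (fun z => hB _))
  simpa using this

lemma hasDerivAt_heat_x {B C : ℝ} {f f' : ℝ → ℝ} (hd : ∀ x, HasDerivAt f (f' x) x)
    (hf' : Continuous f') (hB : ∀ x, |f x| ≤ B) (hC : ∀ x, |f' x| ≤ C) (s x : ℝ) :
    HasDerivAt (fun y => heat f s y) (heat f' s x) x := by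
  have hf : Continuous f := continuous_iff_continuousAt.mpr (fun x => (hd x).continuousAt)
  unfold heat
  refine (hasDerivAt_integral_of_dominated_loc_of_deriv_le (μ := g1)
    (F := fun y z => f (y + s * z)) (F' := fun y z => f' (y + s * z))
    (bound := fun _ => C) (s := univ) univ_mem ?_ ?_ ?_ ?_ ?_ ?_).2
  · exact Eventually.of_forall (fun y => (hf.comp (by fun_prop)).aestronglyMeasurable)
  · exact integrable_bdd (hf.comp (by fun_prop)) (fun z => hB _)
  · exact (hf'.comp (by fun_prop)).aestronglyMeasurable
  · exact Eventually.of_forall (fun z y _ => hC _)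
  · exact integrable_const _
  · refine Eventually.of_forall (fun z y _ => ?_)
    have := (hd (y + s * z)).comp y ((hasDerivAt_id y).add_const (s * z))
    exact this.congr_deriv (by ring)

/-- Gaussian integration by parts -/
lemma stein {B : ℝ} {g g' : ℝ → ℝ} (hd : ∀ x, HasDerivAt g (g' x) x) (hg' : Continuous g')
    (hB : ∀ x, |g x| ≤ B) (hC : ∀ x, |g' x| ≤ B) :
    ∫ z, g z * z ∂g1 = ∫ z, g' z ∂g1 := by
  have hg : Continuous g := continuous_iff_continuousAt.mpr (fun x => (hd x).continuousAt)
  have hB0 : 0 ≤ B := le_trans (abs_nonneg _) (hB 0)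
  have conv : ∀ h : ℝ → ℝ, ∫ z, h z ∂g1 = ∫ z, phi z * h z := by
    intro h
    rw [integral_gaussianReal_eq_integral_smul (by norm_num)]
    rfl
  have iphi := integrable_phi
  have izphi : Integrable (fun z : ℝ => -z * phi z) := by
    have h1 : Integrable (fun z : ℝ => |z|) g1 := integrable_abs_g1
    have h2 : Integrable (fun z : ℝ => z) g1 := by
      refine Integrable.mono h1 (by fun_prop) (Eventually.of_forall (fun z => ?_))
      simp
    have e0 : g1 = volume.withDensity (gaussianPDF 0 1) :=
      gaussianReal_of_var_ne_zero 0 (by norm_num)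
    rw [e0] at h2
    have h3 := (integrable_withDensity_iff_integrable_smul₀'
      (measurable_gaussianPDF 0 1).aemeasurable
      (Eventually.of_forall (fun z => gaussianPDF_lt_top))).mp h2
    have h4 : Integrable (fun z : ℝ => phi z * z) := by
      refine h3.congr (Eventually.of_forall (fun z => ?_))
      simp only [smul_eq_mul, toReal_gaussianPDF]
      rfl
    refine h4.neg.congr (Eventually.of_forall (fun z => ?_))
    simp only [Pi.neg_apply]; ring
  have key := integral_mul_deriv_eq_deriv_mul_of_integrable (u := g) (u' := g') (v := phi)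
    (v' := fun z => -z * phi z) (fun x _ => hd x) (fun x _ => hasDerivAt_phi x) ?_ ?_ ?_
  · rw [conv, conv]
    have e1 : ∫ z, phi z * (g z * z) = - ∫ z, g z * (-z * phi z) := by
      rw [← integral_neg]; congr 1; funext z; ring
    rw [e1, key, neg_neg]
    congr 1; funext z; ring
  · refine (izphi.norm.const_mul B).mono (hg.mul (continuous_id.neg.mul continuous_phi)).aestronglyMeasurable
      (Eventually.of_forall (fun z => ?_))
    simp only [Pi.mul_apply, norm_mul, Real.norm_eq_abs]
    have := hB z
    rw [abs_of_nonneg hB0, abs_abs, abs_abs]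
    exact mul_le_mul_of_nonneg_right this (by positivity)
  · refine (iphi.norm.const_mul B).mono (hg'.mul continuous_phi).aestronglyMeasurable
      (Eventually.of_forall (fun z => ?_))
    simp only [Pi.mul_apply, norm_mul, Real.norm_eq_abs]
    have := hC z
    rw [abs_of_nonneg hB0, abs_abs]
    exact mul_le_mul_of_nonneg_right this (by positivity)
  · refine (iphi.norm.const_mul B).mono (hg.mul continuous_phi).aestronglyMeasurable
      (Eventually.of_forall (fun z => ?_))
    simp only [Pi.mul_apply, norm_mul, Real.norm_eq_abs]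
    have := hB z
    rw [abs_of_nonneg hB0, abs_abs]
    exact mul_le_mul_of_nonneg_right this (by positivity)

lemma hasDerivAt_heat_s {B C : ℝ} {f f' f'' : ℝ → ℝ} (h : Nice B C f f' f'') (s x : ℝ) :
    HasDerivAt (fun t => heat f t x) (s * heat f'' s x) s := by
  have h1 : HasDerivAt (fun t => heat f t x) (∫ z, f' (x + s * z) * z ∂g1) s := by
    unfold heat
    refine (hasDerivAt_integral_of_dominated_loc_of_deriv_le (μ := g1)
      (F := fun t z => f (x + t * z)) (F' := fun t z => f' (x + t * z) * z)
      (bound := fun z => C * |z|) (s := univ) univ_mem ?_ ?_ ?_ ?_ ?_ ?_).2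
    · exact Eventually.of_forall (fun y => (h.c0.comp (by fun_prop)).aestronglyMeasurable)
    · exact integrable_bdd (h.c0.comp (by fun_prop)) (fun z => h.b0 _)
    · exact ((h.c1.comp (by fun_prop)).mul continuous_id).aestronglyMeasurable
    · refine Eventually.of_forall (fun z y _ => ?_)
      rw [Real.norm_eq_abs, abs_mul]
      exact mul_le_mul_of_nonneg_right (h.b1 _) (abs_nonneg _)
    · exact integrable_abs_g1.const_mul C
    · refine Eventually.of_forall (fun z y _ => ?_)
      have := (h.d1 (x + y * z)).comp y (((hasDerivAt_id y).mul_const z).const_add x)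
      exact this.congr_deriv (by ring)
  refine h1.congr_deriv ?_
  have hC0 : 0 ≤ C := le_trans (abs_nonneg _) (h.b1 0)
  rw [stein (g := fun z => f' (x + s * z)) (g' := fun z => s * f'' (x + s * z))
    (B := C + |s| * C)]
  · unfold heat
    rw [integral_const_mul]
  · intro z
    have := (h.d2 (x + s * z)).comp z (((hasDerivAt_id z).const_mul s).const_add x)
    exact this.congr_deriv (by ring)
  · exact continuous_const.mul (h.c2.comp (by fun_prop))
  · intro z
    have h2 := h.b1 (x + s * z)
    have : 0 ≤ |s| * C := by positivity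
    linarith
  · intro z
    rw [abs_mul]
    have h2 := mul_le_mul_of_nonneg_left (h.b2 (x + s * z)) (abs_nonneg s)
    linarith

end Vale.Agent.P262.H847
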