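import Vale.Agent.P262.H847.Moll

/-!
# Ehrhard's inequality on the line: general measurable functions with values in `[0,1]`
-/

namespace Vale.Agent.P262.H847

open MeasureTheory ProbabilityTheory Set Filter Topology

/-- the clamped exponent `max (-n) (min (Psi p) n)` (with the obvious conventions at `0`, `1`) -/
noncomputable def clampP (n : ℝ) (p : ℝ) : ℝ :=
  if p ≤ Phi (-n) then -n else if Phi n ≤ p then n else Psi p

/-- the same, but very negative where `p` is small -/
noncomputable def clampK (K n : ℝ) (p : ℝ) : ℝ :=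
  if p ≤ Phi (-n) then -(K * n) else if Phi n ≤ p then n else Psi p

lemma clampK_mid {K n p : ℝ} (h : Phi (-n) < p) :
    Phi (clampK K n p) ≤ p ∧ -n ≤ clampK K n p ∧ clampK K n p ≤ n ∨ n < -n := by
  by_cases hn : n < -n
  · exact Or.inr hn
  left
  push Not at hn
  unfold clampK
  rw [if_neg (not_le.mpr h)]
  by_cases h2 : Phi n ≤ p
  · rw [if_pos h2]; exact ⟨h2, hn, le_rfl⟩
  · rw [if_neg h2]
    push Not at h2
    have h0 : 0 < p := lt_trans (Phi_pos _) h
    have h1 : p < 1 := lt_trans h2 (Phi_lt_one _)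
    exact ⟨(Phi_Psi h0 h1).le, (le_Psi_iff h0 h1 _).mpr h.le, (Psi_le_iff h0 h1 _).mpr h2.le⟩

lemma clamp_ineq {a b n p q r : ℝ} (ha : 0 < a) (hb : 0 < b) (hab : a + b = 1) (hn : 0 < n)
    (h : ∀ s t, Phi s ≤ p → Phi t ≤ q → Phi (a * s + b * t) ≤ r) :
    a * clampK (2 / min a b) n p + b * clampK (2 / min a b) n q ≤ clampP n r := by
  set K := 2 / min a b with hK
  have hm : 0 < min a b := lt_min ha hb
  have hKa : 2 ≤ a * K := by
    rw [hK, mul_div_assoc', le_div_iff₀ hm]
    nlinarith [min_le_left a b]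
  have hKb : 2 ≤ b * K := by
    rw [hK, mul_div_assoc', le_div_iff₀ hm]
    nlinarith [min_le_right a b]
  have hup : ∀ p, clampK K n p ≤ n := by
    intro p
    by_cases h1 : p ≤ Phi (-n)
    · unfold clampK
      rw [if_pos h1]
      have : 0 ≤ K := by rw [hK]; positivity
      nlinarith [mul_nonneg this hn.le]
    · push Not at h1
      rcases clampK_mid (K := K) h1 with h2 | h2
      · exact h2.2.2
      · linarith
  have hlow : -n ≤ clampP n r := by
    unfold clampP
    split_ifs with h1 h2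
    · exact le_rfl
    · linarith
    · push Not at h1 h2
      exact (le_Psi_iff (lt_trans (Phi_pos _) h1) (lt_trans h2 (Phi_lt_one _)) _).mpr h1.le
  have ha1 : a < 1 := by linarith
  have hb1 : b < 1 := by linarith
  by_cases hp : p ≤ Phi (-n)
  · have e1 : clampK K n p = -(K * n) := by unfold clampK; rw [if_pos hp]
    have h1 := mul_le_mul_of_nonneg_left (hup q) hb.le
    have h2 : 2 * n ≤ a * K * n := mul_le_mul_of_nonneg_right hKa hn.le
    have h3 : b * n ≤ 1 * n := mul_le_mul_of_nonneg_right hb1.le hn.le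
    rw [e1]
    calc a * -(K * n) + b * clampK K n q ≤ -(2 * n) + b * n := by linarith
      _ ≤ -n := by linarith
      _ ≤ _ := hlow
  by_cases hq : q ≤ Phi (-n)
  · have e1 : clampK K n q = -(K * n) := by unfold clampK; rw [if_pos hq]
    have h1 := mul_le_mul_of_nonneg_left (hup p) ha.le
    have h2 : 2 * n ≤ b * K * n := mul_le_mul_of_nonneg_right hKb hn.le
    have h3 : a * n ≤ 1 * n := mul_le_mul_of_nonneg_right ha1.le hn.le
    rw [e1]
    calc a * clampK K n p + b * -(K * n) ≤ -(2 * n) + a * n := by linarith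
      _ ≤ -n := by linarith
      _ ≤ _ := hlow
  push Not at hp hq
  rcases clampK_mid (K := K) hp with hp' | hp'
  swap
  · linarith
  rcases clampK_mid (K := K) hq with hq' | hq'
  swap
  · linarith
  set s := clampK K n p
  set t := clampK K n q
  have hr := h s t hp'.1 hq'.1
  have hst : a * s + b * t ≤ n := by
    have h1 := mul_le_mul_of_nonneg_left hp'.2.2 ha.le
    have h2 := mul_le_mul_of_nonneg_left hq'.2.2 hb.le
    have h3 : a * n + b * n = n := by rw [← add_mul, hab, one_mul]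
    linarith
  unfold clampP
  split_ifs with h1 h2
  · exact strictMono_Phi.le_iff_le.mp (hr.trans h1)
  · exact hst
  · push Not at h1 h2
    exact (le_Psi_iff (lt_trans (Phi_pos _) h1) (lt_trans h2 (Phi_lt_one _)) _).mpr hr

lemma clampK_bound {K n p : ℝ} (hK : 1 ≤ K) (hn : 0 < n) : |clampK K n p| ≤ K * n := by
  have h0 : n ≤ K * n := by nlinarith
  by_cases h1 : p ≤ Phi (-n)
  · unfold clampK
    rw [if_pos h1, abs_neg, abs_of_nonneg (by nlinarith)]
  · push Not at h1
    rcases clampK_mid (K := K) h1 with h2 | h2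
    · rw [abs_le]; constructor <;> linarith [h2.2.1, h2.2.2]
    · linarith

lemma clampP_eq (n p : ℝ) : clampP n p = clampK 1 n p := by
  unfold clampP clampK; rw [one_mul]

lemma Phi_clampK_dist {K n p : ℝ} (hK : 1 ≤ K) (hn : 0 < n) (hp0 : 0 ≤ p) (hp1 : p ≤ 1) :
    |Phi (clampK K n p) - p| ≤ Phi (-n) := by
  unfold clampK
  split_ifs with h1 h2
  · have h3 : Phi (-(K * n)) ≤ Phi (-n) := strictMono_Phi.monotone (by nlinarith)
    have h4 := Phi_nonneg (-(K * n))
    rw [abs_le]; constructor <;> linarith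
  · rw [Phi_neg, abs_le]
    constructor <;> linarith
  · push Not at h1 h2
    rw [Phi_Psi (lt_trans (Phi_pos _) h1) (lt_trans h2 (Phi_lt_one _)), sub_self, abs_zero]
    exact Phi_nonneg _

lemma measurable_clampK {K n : ℝ} : Measurable (clampK K n) := by
  unfold clampK
  refine Measurable.ite measurableSet_Iic measurable_const ?_
  have h1 : (fun p => if Phi n ≤ p then n else Psi p) = fun p => if Phi n ≤ p then n else
      (if p ≤ 0 then Psi p else Psi p) := by funext p; simp
  -- Psi is monotone on (0,1), constant outside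
  have hPsi : ∀ p, ¬ (0 < p ∧ p < 1) → Psi p = Psi 0 := by
    intro p hp
    unfold Psi Function.invFun
    have e1 : ¬ ∃ x, Phi x = p := by
      rintro ⟨x, rfl⟩
      exact hp ⟨Phi_pos x, Phi_lt_one x⟩
    have e2 : ¬ ∃ x, Phi x = 0 := by
      rintro ⟨x, hx⟩
      exact (Phi_pos x).ne' hx
    rw [dif_neg e1, dif_neg e2]
  have hm : Measurable Psi := by
    have e : Psi = (Ioo (0:ℝ) 1).piecewise Psi (fun _ => Psi 0) := by
      funext p
      by_cases hp : p ∈ Ioo (0:ℝ) 1
      · rw [Set.piecewise_eq_of_mem _ _ _ hp]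
      · rw [Set.piecewise_eq_of_notMem _ _ _ hp]
        exact hPsi p (fun h => hp h)
    rw [e]
    apply ContinuousOn.measurable_piecewise continuousOn_Psi continuousOn_const measurableSet_Ioo
  exact Measurable.ite measurableSet_Ici measurable_const hm

/-- **Ehrhard's inequality on the line**, general functional form. -/
theorem ehrhard_line {a b : ℝ} (ha : 0 < a) (hb : 0 < b) (hab : a + b = 1) {f g h : ℝ → ℝ}
    (hf : Measurable f) (hg : Measurable g) (hh : Measurable h)
    (hf0 : ∀ x, 0 ≤ f x) (hf1 : ∀ x, f x ≤ 1) (hg0 : ∀ x, 0 ≤ g x) (hg1 : ∀ x, g x ≤ 1)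
    (hh0 : ∀ x, 0 ≤ h x) (hh1 : ∀ x, h x ≤ 1)
    (H : ∀ x y s t, Phi s ≤ f x → Phi t ≤ g y → Phi (a * s + b * t) ≤ h (a * x + b * y))
    {s t : ℝ} (hs : Phi s ≤ ∫ x, f x ∂g1) (ht : Phi t ≤ ∫ x, g x ∂g1) :
    Phi (a * s + b * t) ≤ ∫ x, h x ∂g1 := by
  set K := 2 / min a b with hK
  have hm : 0 < min a b := lt_min ha hb
  have hm1 : min a b ≤ 1 := (min_le_left _ _).trans (by linarith)
  have hK1 : 1 ≤ K := by
    rw [hK, le_div_iff₀ hm]; linarith
  have key : ∀ n : ℕ, a * Psi (∫ z, Phi (clampK K ((n:ℝ) + 1) (f z)) ∂g1)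
      + b * Psi (∫ z, Phi (clampK K ((n:ℝ) + 1) (g z)) ∂g1)
      ≤ Psi (∫ z, Phi (clampK 1 ((n:ℝ) + 1) (h z)) ∂g1) := by
    intro n
    have hn : (0:ℝ) < (n:ℝ) + 1 := by positivity
    apply ehrhard_bdd (M := K * ((n:ℝ) + 1)) ha hb hab (measurable_clampK.comp hf)
      (measurable_clampK.comp hg) (measurable_clampK.comp hh)
    · intro x; exact clampK_bound hK1 hn
    · intro x; exact clampK_bound hK1 hn
    · intro x
      refine (clampK_bound le_rfl hn).trans ?_
      exact mul_le_mul_of_nonneg_right hK1 hn.le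
    · intro x y
      have := clamp_ineq ha hb hab hn (H x y)
      rw [clampP_eq] at this
      exact this
  have conv : ∀ (K' : ℝ), 1 ≤ K' → ∀ r : ℝ → ℝ, Measurable r → (∀ x, 0 ≤ r x) →
      (∀ x, r x ≤ 1) → ∀ n : ℕ,
      |(∫ z, Phi (clampK K' ((n:ℝ) + 1) (r z)) ∂g1) - ∫ z, r z ∂g1| ≤ Phi (-((n:ℝ) + 1)) := by
    intro K' hK' r hr h0 h1 n
    have hn : (0:ℝ) < (n:ℝ) + 1 := by positivity
    have i1 : Integrable (fun z => Phi (clampK K' ((n:ℝ) + 1) (r z))) g1 :=
      Integrable.of_bound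
        (continuous_Phi.measurable.comp (measurable_clampK.comp hr)).aestronglyMeasurable 1
        (Eventually.of_forall (fun z => by
          rw [Real.norm_eq_abs, abs_of_nonneg (Phi_nonneg _)]; exact Phi_le_one _))
    have i2 : Integrable r g1 := Integrable.of_bound hr.aestronglyMeasurable 1
        (Eventually.of_forall (fun z => by
          rw [Real.norm_eq_abs, abs_of_nonneg (h0 _)]; exact h1 _))
    rw [← integral_sub i1 i2]
    have := norm_integral_le_of_norm_le_const (μ := g1)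
      (f := fun z => Phi (clampK K' ((n:ℝ) + 1) (r z)) - r z) (C := Phi (-((n:ℝ) + 1)))
      (Eventually.of_forall (fun z => Phi_clampK_dist hK' hn (h0 z) (h1 z)))
    simpa using this
  have hlim0 : Tendsto (fun n : ℕ => Phi (-((n:ℝ) + 1))) atTop (𝓝 0) := by
    apply tendsto_Phi_atBot.comp
    apply tendsto_neg_atTop_atBot.comp
    exact tendsto_atTop_add_const_right _ _ tendsto_natCast_atTop_atTop
  have conv' : ∀ (K' : ℝ), 1 ≤ K' → ∀ r : ℝ → ℝ, Measurable r → (∀ x, 0 ≤ r x) →
      (∀ x, r x ≤ 1) → Tendsto (fun n : ℕ => ∫ z, Phi (clampK K' ((n:ℝ) + 1) (r z)) ∂g1) atTop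
        (𝓝 (∫ z, r z ∂g1)) := by
    intro K' hK' r hr h0 h1
    rw [tendsto_iff_dist_tendsto_zero]
    refine squeeze_zero (fun _ => dist_nonneg) (fun n => ?_) hlim0
    exact conv K' hK' r hr h0 h1 n
  have cf := conv' K hK1 f hf hf0 hf1
  have cg := conv' K hK1 g hg hg0 hg1
  have ch := conv' 1 le_rfl h hh hh0 hh1
  have step : ∀ s' t', s' < s → t' < t → Phi (a * s' + b * t') ≤ ∫ x, h x ∂g1 := by
    intro s' t' hs' ht'
    have h1 : ∀ᶠ n : ℕ in atTop, Phi s' < ∫ z, Phi (clampK K ((n:ℝ) + 1) (f z)) ∂g1 :=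
      cf.eventually_const_lt (lt_of_lt_of_le (strictMono_Phi hs') hs)
    have h2 : ∀ᶠ n : ℕ in atTop, Phi t' < ∫ z, Phi (clampK K ((n:ℝ) + 1) (g z)) ∂g1 :=
      cg.eventually_const_lt (lt_of_lt_of_le (strictMono_Phi ht') ht)
    refine ge_of_tendsto ch ?_
    filter_upwards [h1, h2] with n hn1 hn2
    have hn : (0:ℝ) < (n:ℝ) + 1 := by positivity
    have m1 := integral_Phi_mem (u := fun z => clampK K ((n:ℝ) + 1) (f z))
      (measurable_clampK.comp hf) (fun x => clampK_bound hK1 hn)
    have m2 := integral_Phi_mem (u := fun z => clampK K ((n:ℝ) + 1) (g z))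
      (measurable_clampK.comp hg) (fun x => clampK_bound hK1 hn)
    have m3 := integral_Phi_mem (u := fun z => clampK 1 ((n:ℝ) + 1) (h z))
      (measurable_clampK.comp hh) (fun x => clampK_bound le_rfl hn)
    have e1 := (le_Psi_iff m1.1 m1.2 s').mpr hn1.le
    have e2 := (le_Psi_iff m2.1 m2.2 t').mpr hn2.le
    rw [← le_Psi_iff m3.1 m3.2]
    refine le_trans ?_ (key n)
    exact add_le_add (mul_le_mul_of_nonneg_left e1 ha.le) (mul_le_mul_of_nonneg_left e2 hb.le)
  -- let `s' → s`, `t' → t`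
  have hc : Tendsto (fun e : ℝ => Phi (a * (s - e) + b * (t - e))) (𝓝[>] 0)
      (𝓝 (Phi (a * (s - 0) + b * (t - 0)))) := by
    have : Continuous (fun e : ℝ => Phi (a * (s - e) + b * (t - e))) :=
      continuous_Phi.comp (by fun_prop)
    exact (this.tendsto 0).mono_left nhdsWithin_le_nhds
  simp only [sub_zero] at hc
  refine le_of_tendsto hc ?_
  filter_upwards [self_mem_nhdsWithin] with e he
  have he' : (0:ℝ) < e := he
  exact step _ _ (by linarith) (by linarith)

end Vale.Agent.P262.H847
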