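import Vale.Agent.P262.H847.Smooth

/-!
# Ehrhard's inequality in dimension one for bounded measurable exponents
-/

namespace Vale.Agent.P262.H847

open MeasureTheory ProbabilityTheory Set Filter Topology

/-- bump functions shrinking to a point -/
noncomputable def bmp (n : ℕ) : ContDiffBump (0:ℝ) where
  rIn := (1 / ((n:ℝ) + 1)) / 2
  rOut := 1 / ((n:ℝ) + 1)
  rIn_pos := by positivity
  rIn_lt_rOut := by
    have : (0:ℝ) < 1 / ((n:ℝ) + 1) := by positivity
    linarith

/-- the normalised bump kernel -/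
noncomputable def ker (n : ℕ) : ℝ → ℝ := (bmp n).normed volume

lemma ker_contDiff (n : ℕ) : ContDiff ℝ 2 (ker n) := (bmp n).contDiff_normed (n := 2)

lemma ker_compact (n : ℕ) : HasCompactSupport (ker n) := (bmp n).hasCompactSupport_normed

lemma ker_nonneg (n : ℕ) (x : ℝ) : 0 ≤ ker n x := (bmp n).nonneg_normed x

lemma ker_integral (n : ℕ) : ∫ x, ker n x = 1 := (bmp n).integral_normed

lemma ker_integrable (n : ℕ) : Integrable (ker n) := (bmp n).integrable_normed

/-- convolution -/
noncomputable def cv (r u : ℝ → ℝ) (x : ℝ) : ℝ := ∫ t, r t * u (x - t)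

lemma conv_eq_cv (r u : ℝ → ℝ) :
    convolution r u (ContinuousLinearMap.lsmul ℝ ℝ) volume = cv r u := by
  funext x
  simp [convolution, cv]

lemma locInt {M : ℝ} {u : ℝ → ℝ} (hu : Measurable u) (hM : ∀ x, |u x| ≤ M) :
    LocallyIntegrable u volume := by
  have h1 : LocallyIntegrable (fun _ : ℝ => M) volume := locallyIntegrable_const M
  refine h1.mono hu.aestronglyMeasurable (Eventually.of_forall (fun x => ?_))
  rw [Real.norm_eq_abs, Real.norm_eq_abs]
  exact (hM x).trans (le_abs_self M)

lemma abs_cv_le {M : ℝ} {r u : ℝ → ℝ} (hr : Integrable r) (hM : ∀ x, |u x| ≤ M) (x : ℝ) :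
    |cv r u x| ≤ M * ∫ t, |r t| := by
  unfold cv
  rw [← integral_const_mul]
  refine (abs_integral_le_integral_abs).trans ?_
  by_cases hi : Integrable (fun t => r t * u (x - t))
  · apply integral_mono hi.abs (hr.abs.const_mul M)
    intro t
    show |r t * u (x - t)| ≤ M * |r t|
    rw [abs_mul, mul_comm]
    exact mul_le_mul_of_nonneg_right (hM _) (abs_nonneg _)
  · have h0 : ∫ t, |r t * u (x - t)| = 0 ∨ Integrable (fun t => |r t * u (x - t)|) := by
      by_cases h : Integrable (fun t => |r t * u (x - t)|)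
      · exact Or.inr h
      · exact Or.inl (integral_undef h)
    rcases h0 with h0 | h0
    · rw [h0]
      have hM0 : 0 ≤ M := le_trans (abs_nonneg _) (hM 0)
      apply integral_nonneg
      intro t
      show 0 ≤ M * |r t|
      positivity
    · apply integral_mono h0 (hr.abs.const_mul M)
      intro t
      show |r t * u (x - t)| ≤ M * |r t|
      rw [abs_mul, mul_comm]
      exact mul_le_mul_of_nonneg_right (hM _) (abs_nonneg _)

lemma smo_cv {M : ℝ} {u : ℝ → ℝ} (hu : Measurable u) (hM : ∀ x, |u x| ≤ M) (n : ℕ) :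
    Smo M (M * (∫ t, |deriv (ker n) t|) + M * (∫ t, |deriv (deriv (ker n)) t|))
      (cv (ker n) u) (cv (deriv (ker n)) u) (cv (deriv (deriv (ker n))) u) := by
  have hM0 : 0 ≤ M := le_trans (abs_nonneg _) (hM 0)
  have hl := locInt hu hM
  have k1 : ContDiff ℝ 1 (deriv (ker n)) := by
    have := (contDiff_succ_iff_deriv (n := 1) (f := ker n)).mp (by
      have := ker_contDiff n
      norm_num
      exact this)
    exact this.2.2
  have k2 : Continuous (deriv (deriv (ker n))) := k1.continuous_deriv le_rfl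
  have s1 : HasCompactSupport (deriv (ker n)) := (ker_compact n).deriv
  have s2 : HasCompactSupport (deriv (deriv (ker n))) := s1.deriv
  have i1 : Integrable (deriv (ker n)) := k1.continuous.integrable_of_hasCompactSupport s1
  have i2 : Integrable (deriv (deriv (ker n))) := k2.integrable_of_hasCompactSupport s2
  have n1 : 0 ≤ ∫ t, |deriv (ker n) t| := integral_nonneg (fun t => abs_nonneg _)
  have n2 : 0 ≤ ∫ t, |deriv (deriv (ker n)) t| := integral_nonneg (fun t => abs_nonneg _)
  refine ⟨?_, ?_, ?_, ?_, ?_, ?_⟩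
  · intro x
    have := (ker_compact n).hasDerivAt_convolution_left (ContinuousLinearMap.lsmul ℝ ℝ)
      ((ker_contDiff n).of_le (by norm_num)) hl x
    rw [conv_eq_cv, conv_eq_cv] at this
    exact this
  · intro x
    have := s1.hasDerivAt_convolution_left (ContinuousLinearMap.lsmul ℝ ℝ) k1 hl x
    rw [conv_eq_cv, conv_eq_cv] at this
    exact this
  · have := s2.continuous_convolution_left (ContinuousLinearMap.lsmul ℝ ℝ) k2 hl
    rw [conv_eq_cv] at this
    exact this
  · intro x
    have h1 := abs_cv_le (ker_integrable n) hM x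
    have h2 : ∫ t, |ker n t| = 1 := by
      rw [← ker_integral n]
      congr 1; funext t
      exact abs_of_nonneg (ker_nonneg n t)
    rw [h2, mul_one] at h1
    exact h1
  · intro x
    have h1 := abs_cv_le i1 hM x
    have : 0 ≤ M * (∫ t, |deriv (deriv (ker n)) t|) := by positivity
    linarith
  · intro x
    have h1 := abs_cv_le i2 hM x
    have : 0 ≤ M * (∫ t, |deriv (ker n) t|) := by positivity
    linarith

lemma integrable_ker_mul {M : ℝ} {u : ℝ → ℝ} (hu : Measurable u) (hM : ∀ x, |u x| ≤ M) (n : ℕ)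
    (x : ℝ) : Integrable (fun t => ker n t * u (x - t)) := by
  have h1 := (ker_integrable n).bdd_mul (c := M) (f := fun t => u (x - t))
    (hu.comp (measurable_const.sub measurable_id)).aestronglyMeasurable
    (Eventually.of_forall (fun t => hM _))
  refine h1.congr (Eventually.of_forall (fun t => ?_))
  show u (x - t) * ker n t = ker n t * u (x - t)
  ring

lemma cv_ineq {M a b : ℝ} (hab : a + b = 1) {u v w : ℝ → ℝ}
    (hu : Measurable u) (hv : Measurable v) (hw : Measurable w)
    (hMu : ∀ x, |u x| ≤ M) (hMv : ∀ x, |v x| ≤ M) (hMw : ∀ x, |w x| ≤ M)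
    (h : ∀ x y, a * u x + b * v y ≤ w (a * x + b * y)) (n : ℕ) (x y : ℝ) :
    a * cv (ker n) u x + b * cv (ker n) v y ≤ cv (ker n) w (a * x + b * y) := by
  unfold cv
  have iu := integrable_ker_mul hu hMu n x
  have iv := integrable_ker_mul hv hMv n y
  have iw := integrable_ker_mul hw hMw n (a * x + b * y)
  rw [← integral_const_mul, ← integral_const_mul, ← integral_add (iu.const_mul a) (iv.const_mul b)]
  apply integral_mono ((iu.const_mul a).add (iv.const_mul b)) iw
  intro t
  show a * (ker n t * u (x - t)) + b * (ker n t * v (y - t)) ≤ ker n t * w (a * x + b * y - t)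
  have h1 := mul_le_mul_of_nonneg_left (h (x - t) (y - t)) (ker_nonneg n t)
  have h2 : a * (x - t) + b * (y - t) = a * x + b * y - t := by
    have : a * (x - t) + b * (y - t) = a * x + b * y - (a + b) * t := by ring
    rw [this, hab, one_mul]
  rw [h2] at h1
  calc _ = ker n t * (a * u (x - t) + b * v (y - t)) := by ring
    _ ≤ _ := h1

lemma cv_tendsto {M : ℝ} {u : ℝ → ℝ} (hu : Measurable u) (hM : ∀ x, |u x| ≤ M) :
    ∀ᵐ x, Tendsto (fun n => cv (ker n) u x) atTop (𝓝 (u x)) := by
  have h1 := ContDiffBump.ae_convolution_tendsto_right_of_locallyIntegrable (φ := bmp)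
    (l := atTop) (K := 2) (μ := volume) (g := u) ?_ ?_ (locInt hu hM)
  · filter_upwards [h1] with x hx
    refine hx.congr (fun n => ?_)
    exact congrFun (conv_eq_cv _ _) x
  · exact tendsto_one_div_add_atTop_nhds_zero_nat
  · refine Eventually.of_forall (fun n => ?_)
    show 1 / ((n:ℝ) + 1) ≤ 2 * ((1 / ((n:ℝ) + 1)) / 2)
    linarith

lemma integral_Phi_mem {M : ℝ} {u : ℝ → ℝ} (hu : Measurable u) (hM : ∀ x, |u x| ≤ M) :
    (∫ z, Phi (u z) ∂g1) ∈ Ioo (0:ℝ) 1 := by
  have hi : Integrable (fun z => Phi (u z)) g1 :=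
    Integrable.of_bound (continuous_Phi.measurable.comp hu).aestronglyMeasurable 1
      (Eventually.of_forall (fun z => by
        rw [Real.norm_eq_abs, abs_of_nonneg (Phi_nonneg _)]; exact Phi_le_one _))
  constructor
  · have h1 : ∫ _z : ℝ, Phi (-M) ∂g1 ≤ ∫ z, Phi (u z) ∂g1 := by
      apply integral_mono (integrable_const _) hi
      intro z
      exact strictMono_Phi.monotone (abs_le.mp (hM _)).1
    have h2 := Phi_pos (-M)
    simp at h1
    linarith
  · have h1 : ∫ z, Phi (u z) ∂g1 ≤ ∫ _z : ℝ, Phi M ∂g1 := by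
      apply integral_mono hi (integrable_const _)
      intro z
      exact strictMono_Phi.monotone (abs_le.mp (hM _)).2
    have h2 := Phi_lt_one M
    simp at h1
    linarith

lemma tendsto_Psi_integral {M : ℝ} {u : ℝ → ℝ} (hu : Measurable u) (hM : ∀ x, |u x| ≤ M) :
    Tendsto (fun n => Psi (∫ z, Phi (cv (ker n) u z) ∂g1)) atTop
      (𝓝 (Psi (∫ z, Phi (u z) ∂g1))) := by
  have hmem := integral_Phi_mem hu hM
  have h1 : Tendsto (fun n => ∫ z, Phi (cv (ker n) u z) ∂g1) atTop (𝓝 (∫ z, Phi (u z) ∂g1)) := by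
    apply tendsto_integral_of_dominated_convergence (fun _ => 1)
    · intro n
      exact (continuous_Phi.comp (smo_cv hu hM n).c0).aestronglyMeasurable
    · exact integrable_const _
    · intro n
      exact Eventually.of_forall (fun z => by
        rw [Real.norm_eq_abs, abs_of_nonneg (Phi_nonneg _)]; exact Phi_le_one _)
    · have h2 : ∀ᵐ x ∂g1, Tendsto (fun n => cv (ker n) u x) atTop (𝓝 (u x)) :=
        (gaussianReal_absolutelyContinuous 0 (by norm_num)).ae_le (cv_tendsto hu hM)
      filter_upwards [h2] with x hx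
      exact (continuous_Phi.tendsto _).comp hx
  exact ((continuousOn_Psi.continuousAt (Ioo_mem_nhds hmem.1 hmem.2)).tendsto).comp h1

theorem ehrhard_bdd {M a b : ℝ} (ha : 0 < a) (hb : 0 < b) (hab : a + b = 1) {u v w : ℝ → ℝ}
    (hu : Measurable u) (hv : Measurable v) (hw : Measurable w)
    (hMu : ∀ x, |u x| ≤ M) (hMv : ∀ x, |v x| ≤ M) (hMw : ∀ x, |w x| ≤ M)
    (h : ∀ x y, a * u x + b * v y ≤ w (a * x + b * y)) :
    a * Psi (∫ z, Phi (u z) ∂g1) + b * Psi (∫ z, Phi (v z) ∂g1) ≤ Psi (∫ z, Phi (w z) ∂g1) := by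
  refine le_of_tendsto_of_tendsto
    (((tendsto_Psi_integral hu hMu).const_mul a).add ((tendsto_Psi_integral hv hMv).const_mul b))
    (tendsto_Psi_integral hw hMw) (Eventually.of_forall (fun n => ?_))
  exact ehrhard_smooth ha hb hab (smo_cv hu hMu n) (smo_cv hv hMv n) (smo_cv hw hMw n)
    (cv_ineq hab hu hv hw hMu hMv hMw h n)

end Vale.Agent.P262.H847
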