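import Mathlib

/-!
# The Gaussian distribution function and its inverse
-/

namespace Vale.Agent.P262.H847

open MeasureTheory ProbabilityTheory Set Filter Topology

/-- the standard Gaussian measure on the line -/
noncomputable abbrev g1 : Measure ℝ := gaussianReal 0 1

/-- the standard Gaussian density -/
noncomputable def phi (x : ℝ) : ℝ := gaussianPDFReal 0 1 x

/-- the standard Gaussian distribution function -/
noncomputable def Phi (x : ℝ) : ℝ := (g1 (Iic x)).toReal

lemma phi_eq (x : ℝ) : phi x = (Real.sqrt (2 * Real.pi))⁻¹ * Real.exp (-(x ^ 2) / 2) := by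
  simp [phi, gaussianPDFReal]

lemma phi_pos (x : ℝ) : 0 < phi x := gaussianPDFReal_pos 0 1 x (by norm_num)

lemma continuous_phi : Continuous phi := by
  have : phi = fun x => (Real.sqrt (2 * Real.pi))⁻¹ * Real.exp (-(x ^ 2) / 2) := funext phi_eq
  rw [this]; fun_prop

lemma hasDerivAt_phi (x : ℝ) : HasDerivAt phi (-x * phi x) x := by
  have h : phi = fun x => (Real.sqrt (2 * Real.pi))⁻¹ * Real.exp (-(x ^ 2) / 2) := funext phi_eq
  have h1 : HasDerivAt (fun x : ℝ => -(x ^ 2) / 2) (-x) x := by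
    have := ((hasDerivAt_pow 2 x).neg).div_const 2
    exact this.congr_deriv (by push_cast; ring)
  have h2 := (h1.exp).const_mul ((Real.sqrt (2 * Real.pi))⁻¹)
  rw [h]
  exact h2.congr_deriv (by ring)

lemma phi_le_one (x : ℝ) : phi x ≤ 1 := by
  rw [phi_eq]
  have h1 : Real.exp (-(x ^ 2) / 2) ≤ 1 := by
    apply Real.exp_le_one_iff.mpr
    nlinarith [sq_nonneg x]
  have h2 : (Real.sqrt (2 * Real.pi))⁻¹ ≤ 1 := by
    apply inv_le_one_of_one_le₀
    rw [Real.one_le_sqrt]
    nlinarith [Real.pi_gt_three]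
  have h3 : 0 ≤ (Real.sqrt (2 * Real.pi))⁻¹ := by positivity
  nlinarith [Real.exp_pos (-(x ^ 2) / 2)]

lemma integrable_phi : Integrable phi := integrable_gaussianPDFReal 0 1

lemma integral_phi : ∫ x, phi x = 1 := integral_gaussianPDFReal_eq_one 0 (by norm_num)

lemma Phi_eq_integral (x : ℝ) : Phi x = ∫ t in Iic x, phi t := by
  unfold Phi
  rw [gaussianReal_apply_eq_integral 0 (by norm_num), ENNReal.toReal_ofReal]
  · rfl
  · exact integral_nonneg (fun t => gaussianPDFReal_nonneg 0 1 t)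

lemma Phi_nonneg (x : ℝ) : 0 ≤ Phi x := ENNReal.toReal_nonneg

lemma Phi_le_one (x : ℝ) : Phi x ≤ 1 := by
  unfold Phi
  have := prob_le_one (μ := g1) (s := Iic x)
  exact ENNReal.toReal_le_of_le_ofReal zero_le_one (by simpa using this)

lemma Phi_sub (a b : ℝ) : Phi b - Phi a = ∫ t in a..b, phi t := by
  rw [Phi_eq_integral, Phi_eq_integral]
  exact intervalIntegral.integral_Iic_sub_Iic integrable_phi.integrableOn
    integrable_phi.integrableOn

lemma hasDerivAt_Phi (x : ℝ) : HasDerivAt Phi (phi x) x := by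
  have h : Phi = fun x => Phi 0 + ∫ t in (0:ℝ)..x, phi t := by
    funext y
    rw [← Phi_sub]; ring
  rw [h]
  have := intervalIntegral.integral_hasDerivAt_right
    (continuous_phi.intervalIntegrable 0 x)
    (continuous_phi.stronglyMeasurableAtFilter _ _) continuous_phi.continuousAt
  exact this.const_add _

lemma continuous_Phi : Continuous Phi :=
  continuous_iff_continuousAt.mpr (fun x => (hasDerivAt_Phi x).continuousAt)

lemma strictMono_Phi : StrictMono Phi := by
  apply strictMono_of_deriv_pos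
  intro x
  rw [(hasDerivAt_Phi x).deriv]
  exact phi_pos x

lemma Phi_eq_cdf : Phi = fun x => cdf g1 x := by
  funext x
  rw [cdf_eq_real]; rfl

lemma tendsto_Phi_atBot : Tendsto Phi atBot (𝓝 0) := by
  rw [Phi_eq_cdf]; exact tendsto_cdf_atBot g1

lemma tendsto_Phi_atTop : Tendsto Phi atTop (𝓝 1) := by
  rw [Phi_eq_cdf]; exact tendsto_cdf_atTop g1

lemma Phi_pos (x : ℝ) : 0 < Phi x :=
  lt_of_le_of_lt (Phi_nonneg (x - 1)) (strictMono_Phi (by linarith))

lemma Phi_lt_one (x : ℝ) : Phi x < 1 :=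
  lt_of_lt_of_le (strictMono_Phi (by linarith : x < x + 1)) (Phi_le_one (x + 1))

lemma exists_Phi_eq {p : ℝ} (h0 : 0 < p) (h1 : p < 1) : ∃ x, Phi x = p := by
  obtain ⟨a, ha⟩ := (tendsto_Phi_atBot.eventually_lt_const h0).exists
  obtain ⟨b, hb⟩ := (tendsto_Phi_atTop.eventually_const_lt h1).exists
  exact mem_range_of_exists_le_of_exists_ge continuous_Phi ⟨a, ha.le⟩ ⟨b, hb.le⟩

/-- the quantile function (inverse of `Phi` on `(0,1)`) -/
noncomputable def Psi (p : ℝ) : ℝ := Function.invFun Phi p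

lemma Psi_Phi (x : ℝ) : Psi (Phi x) = x :=
  Function.leftInverse_invFun strictMono_Phi.injective x

lemma Phi_Psi {p : ℝ} (h0 : 0 < p) (h1 : p < 1) : Phi (Psi p) = p :=
  Function.invFun_eq (exists_Phi_eq h0 h1)

lemma continuousOn_Psi : ContinuousOn Psi (Ioo 0 1) := by
  intro p hp
  obtain ⟨x, rfl⟩ := exists_Phi_eq hp.1 hp.2
  apply ContinuousAt.continuousWithinAt
  rw [Metric.continuousAt_iff]
  intro ε hε
  have h1 : Phi (x - ε) < Phi x := strictMono_Phi (by linarith)
  have h2 : Phi x < Phi (x + ε) := strictMono_Phi (by linarith)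
  refine ⟨min (Phi x - Phi (x - ε)) (Phi (x + ε) - Phi x), by
    apply lt_min <;> linarith, ?_⟩
  intro q hq
  rw [Real.dist_eq, abs_lt] at hq
  have hq1 : Phi (x - ε) < q := by
    have := min_le_left (Phi x - Phi (x - ε)) (Phi (x + ε) - Phi x); linarith
  have hq2 : q < Phi (x + ε) := by
    have := min_le_right (Phi x - Phi (x - ε)) (Phi (x + ε) - Phi x); linarith
  have hq0 : 0 < q := lt_trans (Phi_pos _) hq1
  have hq3 : q < 1 := lt_trans hq2 (Phi_lt_one _)
  obtain ⟨y, rfl⟩ := exists_Phi_eq hq0 hq3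
  rw [Psi_Phi, Psi_Phi, Real.dist_eq, abs_lt]
  constructor
  · have := strictMono_Phi.lt_iff_lt.mp hq1; linarith
  · have := strictMono_Phi.lt_iff_lt.mp hq2; linarith

lemma hasDerivAt_Psi {p : ℝ} (h0 : 0 < p) (h1 : p < 1) :
    HasDerivAt Psi (phi (Psi p))⁻¹ p := by
  refine HasDerivAt.of_local_left_inverse (f := Phi) (g := Psi) ?_ ?_ (phi_pos _).ne' ?_
  · exact continuousOn_Psi.continuousAt (Ioo_mem_nhds h0 h1)
  · exact hasDerivAt_Phi _
  · filter_upwards [Ioo_mem_nhds h0 h1] with q hq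
    exact Phi_Psi hq.1 hq.2

lemma Psi_le_iff {p : ℝ} (h0 : 0 < p) (h1 : p < 1) (x : ℝ) : Psi p ≤ x ↔ p ≤ Phi x := by
  rw [← strictMono_Phi.le_iff_le, Phi_Psi h0 h1]

lemma le_Psi_iff {p : ℝ} (h0 : 0 < p) (h1 : p < 1) (x : ℝ) : x ≤ Psi p ↔ Phi x ≤ p := by
  rw [← strictMono_Phi.le_iff_le, Phi_Psi h0 h1]

/-- symmetry -/
lemma phi_neg (x : ℝ) : phi (-x) = phi x := by
  rw [phi_eq, phi_eq]; simp

lemma Phi_neg (x : ℝ) : Phi (-x) = 1 - Phi x := by
  have h2 : ∀ y, Phi (-y) + Phi y = Phi (-0) + Phi 0 := by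
    intro y
    apply is_const_of_deriv_eq_zero (f := fun y => Phi (-y) + Phi y)
    · intro z
      exact ((hasDerivAt_Phi (-z)).comp z (hasDerivAt_neg z)).add
        (hasDerivAt_Phi z) |>.differentiableAt
    · intro z
      have := ((hasDerivAt_Phi (-z)).comp z (hasDerivAt_neg z)).add (hasDerivAt_Phi z)
      rw [show deriv (fun y => Phi (-y) + Phi y) z = _ from this.deriv]
      rw [phi_neg]; ring
  have h3 : Tendsto (fun y => Phi (-y) + Phi y) atTop (𝓝 (0 + 1)) :=
    (tendsto_Phi_atBot.comp tendsto_neg_atTop_atBot).add tendsto_Phi_atTop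
  have h4 : Phi (-0) + Phi 0 = 0 + 1 := by
    apply tendsto_nhds_unique _ h3
    simp_rw [h2]
    exact tendsto_const_nhds
  have := h2 x
  linarith

lemma Phi_zero : Phi 0 = 1 / 2 := by
  have := Phi_neg 0
  rw [neg_zero] at this
  linarith

end Vale.Agent.P262.H847
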