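import Vale.Agent.P262.H847.Good
import Vale.Agent.P262.Ehr.Multi

/-!
# Regularisation of `Phi`-concave functions

The block [J-E]: an inequality for all `Good` functions passes to all `Phi`-concave functions.
-/

set_option linter.unusedSectionVars false

namespace Vale.Agent.P262.H847.Reg

open MeasureTheory Set Filter Topology
open scoped ContDiff Convolution InnerProductSpace
open Vale.Agent.P262.Ehr (Phi Psi comb PhiConcave Phi_pos Phi_lt_one Phi_strictMono Psi_Phi Phi_Psi
  Phi_continuous comb_mid comb_zero comb_one comb_mono comb_self comb_nonneg Psi_le_Psi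
  Phi_tendsto_atBot Phi_tendsto_atTop Psi_lt_Psi)

variable {E : Type} [NormedAddCommGroup E] [InnerProductSpace ℝ E] [FiniteDimensional ℝ E]
  [MeasurableSpace E] [BorelSpace E]

lemma convex_null {K : Set E} (hK : Convex ℝ K) : NullMeasurableSet K (volume : Measure E) :=
  hK.nullMeasurableSet volume

/-- A `Phi`-concave function is a.e. measurable. -/
lemma aemeas {u : E → ℝ} (h : PhiConcave u) : AEMeasurable u (volume : Measure E) := by
  have hn : NullMeasurable u (volume : Measure E) := by
    have key : ∀ c : ℝ, NullMeasurableSet (u ⁻¹' Ioi c) (volume : Measure E) := fun c =>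
      (h.convex c).nullMeasurableSet volume
    have := @measurable_of_Ioi ℝ (NullMeasurableSpace E (volume : Measure E)) _ _ _ _ _ _ _ u key
    exact fun s hs => this hs
  exact hn.aemeasurable

/-! ### The sup-convolution -/

/-- The sup-convolution of `Psi ∘ u` with `-L ‖·‖`. -/
noncomputable def supc (u : E → ℝ) (L : ℝ) (x : E) : ℝ :=
  ⨆ y : {y : E // 0 < u y}, (Psi (u y) - L * ‖x - y‖)

section supc

variable {u : E → ℝ} {N : ℝ} (hu : PhiConcave u) (hN : ∀ x, u x ≤ Phi N) (hne : ∃ x, 0 < u x)
include hN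

lemma Psi_u_le {y : E} (hy : 0 < u y) : Psi (u y) ≤ N := by
  have := Psi_le_Psi hy (hN y) (Phi_lt_one N)
  rwa [Psi_Phi] at this

lemma supc_bdd {L : ℝ} (hL : 0 ≤ L) (x : E) :
    BddAbove (range fun y : {y : E // 0 < u y} => (Psi (u y) - L * ‖x - y‖)) := by
  refine ⟨N, ?_⟩
  rintro _ ⟨y, rfl⟩
  have h1 := Psi_u_le hN y.2
  have h2 : 0 ≤ L * ‖x - y‖ := by positivity
  show Psi (u y) - L * ‖x - y‖ ≤ N
  linarith

lemma le_supc {L : ℝ} (hL : 0 ≤ L) (x : E) {y : E} (hy : 0 < u y) :
    Psi (u y) - L * ‖x - y‖ ≤ supc u L x :=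
  le_ciSup (supc_bdd hN hL x) ⟨y, hy⟩

include hne in
lemma supc_lip {L : ℝ} (hL : 0 ≤ L) (x x' : E) : |supc u L x - supc u L x'| ≤ L * ‖x - x'‖ := by
  have : Nonempty {y : E // 0 < u y} := by
    obtain ⟨y, hy⟩ := hne
    exact ⟨⟨y, hy⟩⟩
  have key : ∀ x x' : E, supc u L x ≤ supc u L x' + L * ‖x - x'‖ := by
    intro x x'
    refine ciSup_le fun y => ?_
    have h1 := le_supc hN hL x' y.2
    have h2 : ‖x' - (y : E)‖ ≤ ‖x - x'‖ + ‖x - y‖ := by
      calc ‖x' - (y : E)‖ = ‖(x - y) - (x - x')‖ := by congr 1; abel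
        _ ≤ ‖x - y‖ + ‖x - x'‖ := norm_sub_le _ _
        _ = _ := add_comm _ _
    have h3 := mul_le_mul_of_nonneg_left h2 hL
    linarith
  rw [abs_le]
  have h1 := key x x'
  have h2 := key x' x
  rw [norm_sub_rev] at h2
  constructor <;> linarith

include hu hne in
lemma supc_concave {L : ℝ} (hL : 0 ≤ L) : ConcaveOn ℝ univ (supc u L) := by
  have : Nonempty {y : E // 0 < u y} := by
    obtain ⟨y, hy⟩ := hne
    exact ⟨⟨y, hy⟩⟩
  have hC : Convex ℝ {y | 0 < u y} := hu.convex 0
  have hconc : ConcaveOn ℝ {y | 0 < u y} (fun y => Psi (u y)) :=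
    hu.concaveOn hC (fun y hy => hy) (fun y _ => (hN y).trans_lt (Phi_lt_one N))
  refine ⟨convex_univ, fun x _ x' _ a b ha hb hab => ?_⟩
  simp only [smul_eq_mul]
  refine le_of_forall_pos_le_add fun ε hε => ?_
  obtain ⟨y, hy⟩ := exists_lt_of_lt_ciSup (show supc u L x - ε < supc u L x by linarith)
  obtain ⟨y', hy'⟩ := exists_lt_of_lt_ciSup (show supc u L x' - ε < supc u L x' by linarith)
  have h1 := hconc.2 y.2 y'.2 ha hb hab
  have hm : 0 < u (a • (y : E) + b • (y' : E)) := hC y.2 y'.2 ha hb hab
  have h2 := le_supc hN hL (a • x + b • x') hm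
  have h3 : ‖(a • x + b • x') - (a • (y : E) + b • (y' : E))‖ ≤ a * ‖x - y‖ + b * ‖x' - y'‖ := by
    calc ‖(a • x + b • x') - (a • (y : E) + b • (y' : E))‖
        = ‖a • (x - y) + b • (x' - y')‖ := by congr 1; module
      _ ≤ ‖a • (x - y)‖ + ‖b • (x' - y')‖ := norm_add_le _ _
      _ = _ := by rw [norm_smul, norm_smul, Real.norm_eq_abs, Real.norm_eq_abs,
        abs_of_nonneg ha, abs_of_nonneg hb]
  have h4 := mul_le_mul_of_nonneg_left h3 hL
  simp only [smul_eq_mul] at h1
  have h5 := mul_le_mul_of_nonneg_left hy.le ha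
  have h6 := mul_le_mul_of_nonneg_left hy'.le hb
  have h7 : a * ε + b * ε = ε := by rw [← add_mul, hab, one_mul]
  nlinarith

include hu hne in
/-- Outside the boundary of `{0 < u}` the sup-convolutions converge. -/
lemma supc_tendsto {x : E} (hx : x ∉ frontier {y | 0 < u y}) :
    Tendsto (fun L : ℕ => Phi (supc u L x)) atTop (𝓝 (u x)) := by
  have : Nonempty {y : E // 0 < u y} := by
    obtain ⟨y, hy⟩ := hne
    exact ⟨⟨y, hy⟩⟩
  set C : Set E := {y | 0 < u y} with hCdef
  have hC : Convex ℝ C := hu.convex 0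
  have hconc : ConcaveOn ℝ C (fun y => Psi (u y)) :=
    hu.concaveOn hC (fun y hy => hy) (fun y _ => (hN y).trans_lt (Phi_lt_one N))
  have h01 : u x < 1 := (hN x).trans_lt (Phi_lt_one N)
  by_cases hxi : x ∈ interior C
  · have hx0 : 0 < u x := (interior_subset (s := C) hxi : x ∈ C)
    have hcont : ContinuousAt (fun y => Psi (u y)) x :=
      hconc.continuousOn_interior.continuousAt (isOpen_interior.mem_nhds hxi)
    have hlim : Tendsto (fun L : ℕ => supc u L x) atTop (𝓝 (Psi (u x))) := by
      rw [Metric.tendsto_atTop]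
      intro ε hε
      obtain ⟨r, hr, hr2⟩ := Metric.continuousAt_iff.mp hcont (ε / 2) (by positivity)
      obtain ⟨L₀, hL₀⟩ := exists_nat_gt ((N - Psi (u x)) / r)
      refine ⟨L₀, fun L hL => ?_⟩
      have hL0 : (0 : ℝ) ≤ L := Nat.cast_nonneg _
      have hlow : Psi (u x) ≤ supc u L x := by
        have := le_supc hN hL0 x hx0
        simpa using this
      have hup : supc u L x ≤ Psi (u x) + ε / 2 := by
        refine ciSup_le fun y => ?_
        by_cases hy : dist (y : E) x < r
        · have h1 := hr2 hy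
          rw [Real.dist_eq, abs_lt] at h1
          have h2 : 0 ≤ (L : ℝ) * ‖x - y‖ := by positivity
          linarith [h1.2]
        · rw [not_lt, dist_comm, dist_eq_norm] at hy
          have h1 := Psi_u_le hN y.2
          have h2 : (L : ℝ) * r ≤ L * ‖x - y‖ := mul_le_mul_of_nonneg_left hy hL0
          have h3 : (N - Psi (u x)) / r < L := hL₀.trans_le (by exact_mod_cast hL)
          rw [div_lt_iff₀ hr] at h3
          linarith
      rw [Real.dist_eq, abs_lt]
      constructor <;> linarith
    have := (Phi_continuous.tendsto _).comp hlim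
    rwa [Phi_Psi hx0 h01] at this
  · have hxc : x ∉ closure C := by
      intro h
      exact hx ⟨h, hxi⟩
    have hux : u x = 0 := by
      refine le_antisymm (not_lt.mp fun h => hxc (subset_closure h)) (hu.nonneg x)
    rw [hux]
    obtain ⟨r, hr, hr2⟩ := Metric.mem_nhds_iff.mp (isClosed_closure.isOpen_compl.mem_nhds hxc)
    have hup : ∀ L : ℕ, supc u L x ≤ N - L * r := by
      intro L
      have hL0 : (0 : ℝ) ≤ L := Nat.cast_nonneg _
      refine ciSup_le fun y => ?_
      have hy : r ≤ ‖x - y‖ := by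
        by_contra hlt
        rw [not_le] at hlt
        have : (y : E) ∈ Metric.ball x r := by
          rw [Metric.mem_ball, dist_comm, dist_eq_norm]; exact hlt
        exact hr2 this (subset_closure y.2)
      have h1 := Psi_u_le hN y.2
      have h2 : (L : ℝ) * r ≤ L * ‖x - y‖ := mul_le_mul_of_nonneg_left hy hL0
      linarith
    refine Phi_tendsto_atBot.comp (tendsto_atBot_mono hup ?_)
    have h3 : Tendsto (fun L : ℕ => -((L : ℝ) * r)) atTop atBot :=
      tendsto_neg_atTop_atBot.comp (tendsto_natCast_atTop_atTop.atTop_mul_const hr)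
    have h4 := tendsto_atBot_add_const_left atTop N h3
    refine h4.congr fun L => by ring

end supc

/-- Truncation preserves `Phi`-concavity. -/
lemma trunc {u : E → ℝ} (hu : PhiConcave u) {c : ℝ} (c0 : 0 ≤ c) (c1 : c ≤ 1) :
    PhiConcave (fun x => min (u x) c) := by
  refine ⟨fun x => le_min (hu.nonneg x) c0, fun x => (min_le_left _ _).trans (hu.le_one x),
    fun x y t ht0 ht1 => le_min ?_ ?_⟩
  · exact (comb_mono ht0 ht1 (min_le_left _ _) (min_le_left _ _)).trans (hu.comb_le x y t ht0 ht1)
  · have := comb_mono (t := t) ht0 ht1 (min_le_right (u x) c) (min_le_right (u y) c)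
    rwa [comb_self c0 c1] at this

/-! ### The closure argument -/

variable {ν γ : Measure E} [IsFiniteMeasure ν] [IsFiniteMeasure γ]

/-- The inequality which is transported. -/
def Ineq (ν γ : Measure E) (f : E → ℝ) (u : E → ℝ) : Prop :=
  1 / 2 < ∫ x, u x ∂ν → ∫ x, u x ∂ν ≤ γ.real {x | Phi (f x) ≤ u x}

lemma ineq_closed (hν : ν ≪ volume) (hγ : γ ≪ volume) {f : E → ℝ} (hf : Measurable f)
    {u : E → ℝ} {U : ℕ → E → ℝ} (hm : ∀ j, AEMeasurable (U j) volume)
    (hb : ∀ j x, ‖U j x‖ ≤ 1) (hlim : ∀ᵐ x, Tendsto (fun j => U j x) atTop (𝓝 (u x)))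
    (hP : ∀ j, Ineq ν γ f (U j)) : Ineq ν γ f u := by
  intro hu
  have hum : AEMeasurable u volume := aemeasurable_of_tendsto_metrizable_ae atTop hm hlim
  have I1 : Tendsto (fun j => ∫ x, U j x ∂ν) atTop (𝓝 (∫ x, u x ∂ν)) := by
    refine tendsto_integral_of_dominated_convergence (fun _ => 1)
      (fun j => ((hm j).mono_ac hν).aestronglyMeasurable) (integrable_const _)
      (fun j => Eventually.of_forall (hb j)) (hν.ae_le hlim)
  set A : Set E := {x | Phi (f x) ≤ u x} with hA
  set B : ℕ → Set E := fun j => {x | Phi (f x) ≤ U j x} \ A with hB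
  have hPf : Measurable fun x => Phi (f x) := Phi_continuous.measurable.comp hf
  have hAm : NullMeasurableSet A γ :=
    nullMeasurableSet_le hPf.aemeasurable (hum.mono_ac hγ)
  have hBm : ∀ j, NullMeasurableSet (B j) γ := fun j =>
    (nullMeasurableSet_le hPf.aemeasurable ((hm j).mono_ac hγ)).diff hAm
  have I2 : Tendsto (fun j => γ.real (B j)) atTop (𝓝 0) := by
    have h1 : Tendsto (fun j => ∫ x, (B j).indicator (fun _ => (1 : ℝ)) x ∂γ) atTop
        (𝓝 (∫ _, (0 : ℝ) ∂γ)) := by
      refine tendsto_integral_of_dominated_convergence (fun _ => 1)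
        (fun j => aestronglyMeasurable_const.indicator₀ (hBm j)) (integrable_const _)
        (fun j => Eventually.of_forall fun x => ?_) ?_
      · by_cases hx : x ∈ B j
        · rw [indicator_of_mem hx]; simp
        · rw [indicator_of_notMem hx]; simp
      · filter_upwards [hγ.ae_le hlim] with x hx
        refine tendsto_const_nhds.congr' ?_
        by_cases hxA : x ∈ A
        · refine Eventually.of_forall fun j => ?_
          show (0 : ℝ) = (B j).indicator (fun _ => (1 : ℝ)) x
          rw [indicator_of_notMem]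
          exact fun h => h.2 hxA
        · have hlt : u x < Phi (f x) := not_le.mp hxA
          filter_upwards [hx.eventually_lt_const hlt] with j hj
          rw [indicator_of_notMem]
          exact fun h => absurd h.1 (not_le.mpr hj)
    rw [integral_zero] at h1
    refine h1.congr fun j => ?_
    rw [integral_indicator₀ (hBm j)]
    simp
  have I3 : ∀ᶠ j in atTop, ∫ x, U j x ∂ν ≤ γ.real A + γ.real (B j) := by
    filter_upwards [I1.eventually_const_lt hu] with j hj
    refine (hP j hj).trans ?_
    have hsub : {x | Phi (f x) ≤ U j x} ⊆ A ∪ B j := by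
      intro x hx
      by_cases h : x ∈ A
      · exact Or.inl h
      · exact Or.inr ⟨hx, h⟩
    exact (measureReal_mono hsub).trans (measureReal_union_le _ _)
  have h := le_of_tendsto_of_tendsto I1 (I2.const_add (γ.real A)) I3
  simpa using h

/-- **Regularisation** [J-E]. An inequality for `Good` functions implies it for all
`Phi`-concave functions. -/
theorem regularise (hν : ν ≪ volume) (hγ : γ ≪ volume) {f : E → ℝ} (hf : Measurable f)
    (H : ∀ n : E → ℝ, Good n → 1 / 2 ≤ ∫ x, Phi (n x) ∂ν →
      ∫ x, Phi (n x) ∂ν ≤ γ.real {x | f x ≤ n x})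
    {u : E → ℝ} (hu : PhiConcave u) (h2 : 1 / 2 < ∫ x, u x ∂ν) :
    ∫ x, u x ∂ν ≤ γ.real {x | Phi (f x) ≤ u x} := by
  have hPb : ∀ y : ℝ, ‖Phi y‖ ≤ 1 := fun y => by
    rw [Real.norm_eq_abs, abs_of_pos (Phi_pos y)]; exact (Phi_lt_one y).le
  -- Good functions
  have S0 : ∀ n : E → ℝ, Good n → Ineq ν γ f (fun x => Phi (n x)) := by
    intro n hn h
    refine (H n hn h.le).trans (le_of_eq ?_)
    congr 1
    ext x
    exact (Phi_strictMono.le_iff_le).symm
  -- mollified Lipschitz concave functions
  have S1 : ∀ (g : E → ℝ) (K : ℝ), 0 ≤ K → (∀ x y, |g x - g y| ≤ K * ‖x - y‖) →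
      ConcaveOn ℝ univ g → ∀ φ : ContDiffBump (0 : E),
        Ineq ν γ f (fun x => Phi (mol (φ.normed volume) g x)) := by
    intro g K hK0 hK hcv φ
    have hgc : Continuous g := by
      have : LipschitzWith ⟨K, hK0⟩ g := LipschitzWith.of_dist_le_mul fun x y => by
        rw [Real.dist_eq, dist_eq_norm]; exact hK x y
      exact this.continuous
    refine ineq_closed hν hγ hf (U := fun j x => Phi (mol (φ.normed volume) g x
      - (1 / ((j : ℝ) + 1)) * ‖x‖ ^ 2)) ?_ (fun j x => hPb _) ?_ ?_
    · intro j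
      have hc1 : Continuous (mol (φ.normed (volume : Measure E)) g) :=
        (mol_contDiff φ.contDiff_normed φ.hasCompactSupport_normed hgc).continuous
      exact (Phi_continuous.comp (hc1.sub (continuous_const.mul
        (continuous_norm.pow 2)))).aemeasurable
    · refine Eventually.of_forall fun x => ?_
      refine (Phi_continuous.tendsto _).comp ?_
      have h1 : Tendsto (fun j : ℕ => 1 / ((j : ℝ) + 1)) atTop (𝓝 0) :=
        tendsto_one_div_add_atTop_nhds_zero_nat
      have h2 := (h1.mul_const (‖x‖ ^ 2)).const_sub (mol (φ.normed volume) g x)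
      simpa using h2
    · intro j
      exact S0 _ (good_mol φ.contDiff_normed φ.hasCompactSupport_normed φ.nonneg_normed hK hgc hcv
        (by positivity))
  -- Lipschitz concave functions
  have S2 : ∀ (g : E → ℝ) (K : ℝ), 0 ≤ K → (∀ x y, |g x - g y| ≤ K * ‖x - y‖) →
      ConcaveOn ℝ univ g → Ineq ν γ f (fun x => Phi (g x)) := by
    intro g K hK0 hK hcv
    have hgc : Continuous g := by
      have : LipschitzWith ⟨K, hK0⟩ g := LipschitzWith.of_dist_le_mul fun x y => by
        rw [Real.dist_eq, dist_eq_norm]; exact hK x y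
      exact this.continuous
    have hpos : ∀ j : ℕ, (0 : ℝ) < 1 / ((j : ℝ) + 1) := fun j => by positivity
    set φ : ℕ → ContDiffBump (0 : E) := fun j =>
      ⟨1 / ((j : ℝ) + 1) / 2, 1 / ((j : ℝ) + 1), half_pos (hpos j), half_lt_self (hpos j)⟩ with hφ
    refine ineq_closed hν hγ hf (U := fun j x => Phi (mol ((φ j).normed volume) g x)) ?_
      (fun j x => hPb _) ?_ ?_
    · intro j
      have hc1 : Continuous (mol ((φ j).normed (volume : Measure E)) g) :=
        (mol_contDiff (φ j).contDiff_normed (φ j).hasCompactSupport_normed hgc).continuous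
      exact (Phi_continuous.comp hc1).aemeasurable
    · refine Eventually.of_forall fun x => ?_
      refine (Phi_continuous.tendsto _).comp ?_
      refine ContDiffBump.convolution_tendsto_right_of_continuous ?_ hgc x
      exact tendsto_one_div_add_atTop_nhds_zero_nat
    · intro j
      exact S1 g K hK0 hK hcv (φ j)
  -- bounded Phi-concave functions
  have S3 : ∀ (u : E → ℝ) (N : ℝ), PhiConcave u → (∀ x, u x ≤ Phi N) → (∃ x, 0 < u x) →
      Ineq ν γ f u := by
    intro u N hu hN hne
    refine ineq_closed hν hγ hf (U := fun (j : ℕ) x => Phi (supc u (j : ℝ) x)) ?_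
      (fun j x => hPb _) ?_ ?_
    · intro j
      have : LipschitzWith ⟨(j : ℝ), Nat.cast_nonneg j⟩ (supc u (j : ℝ)) :=
        LipschitzWith.of_dist_le_mul fun x y => by
          rw [Real.dist_eq, dist_eq_norm]; exact supc_lip hN hne (Nat.cast_nonneg j) x y
      exact (Phi_continuous.comp this.continuous).aemeasurable
    · have h0 : ∀ᵐ x : E, x ∉ frontier {y | 0 < u y} :=
        measure_eq_zero_iff_ae_notMem.mp ((hu.convex 0).addHaar_frontier volume)
      filter_upwards [h0] with x hx
      exact supc_tendsto hu hN hne hx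
    · intro j
      exact S2 _ (j : ℝ) (Nat.cast_nonneg j) (supc_lip hN hne (Nat.cast_nonneg j))
        (supc_concave hu hN hne (Nat.cast_nonneg j))
  -- the general case
  have hne : ∃ x, 0 < u x := by
    by_contra h
    push Not at h
    have h0 : u = fun _ => 0 := funext fun x => le_antisymm (h x) (hu.nonneg x)
    rw [h0] at h2
    simp at h2
    linarith
  refine ineq_closed hν hγ hf (U := fun (j : ℕ) x => min (u x) (Phi j)) ?_ ?_ ?_ ?_ h2
  · intro j
    exact (aemeas hu).min aemeasurable_const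
  · intro j x
    rw [Real.norm_eq_abs, abs_of_nonneg (le_min (hu.nonneg x) (Phi_pos _).le)]
    exact (min_le_left _ _).trans (hu.le_one x)
  · refine Eventually.of_forall fun x => ?_
    have h1 : Tendsto (fun j : ℕ => Phi (j : ℝ)) atTop (𝓝 1) :=
      Phi_tendsto_atTop.comp tendsto_natCast_atTop_atTop
    have h2 := (tendsto_const_nhds (x := u x)).min h1
    rwa [min_eq_left (hu.le_one x)] at h2
  · intro j
    refine S3 _ (j : ℝ) (trunc hu (Phi_pos _).le (Phi_lt_one _).le) (fun x => min_le_right _ _) ?_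
    obtain ⟨x, hx⟩ := hne
    exact ⟨x, lt_min hx (Phi_pos _)⟩

end Vale.Agent.P262.H847.Reg
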