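import Vale.Agent.P262.H847.Reg

/-!
# Regularisation of integral inequalities for concave functions
-/

set_option linter.unusedSectionVars false

namespace Vale.Agent.P262.H847.Reg

open MeasureTheory Set Filter Topology
open scoped ContDiff Convolution InnerProductSpace
open Vale.Agent.P262.Ehr (Phi Psi comb PhiConcave Phi_pos Phi_lt_one Phi_strictMono Psi_Phi Phi_Psi
  Phi_continuous phiConcave_Phi Psi_continuousAt)

variable {E : Type} [NormedAddCommGroup E] [InnerProductSpace ℝ E] [FiniteDimensional ℝ E]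
  [MeasurableSpace E] [BorelSpace E]

variable {μ : Measure E} [IsFiniteMeasure μ]

/-- The integral inequality which is transported. -/
def Ineq2 (μ : Measure E) (F : E → ℝ → ℝ) (w : E → ℝ) : Prop :=
  1 / 2 < ∫ x, Phi (w x) ∂μ → 0 ≤ ∫ x, F x (w x) ∂μ

lemma ineq2_closed {F : E → ℝ → ℝ} {G : E → ℝ} (hG : Integrable G μ)
    (hF : ∀ x, Continuous (F x)) (hb : ∀ x s, |F x s| ≤ G x)
    (hm : ∀ w : E → ℝ, Continuous w → AEStronglyMeasurable (fun x => F x (w x)) μ)
    {w : E → ℝ} {W : ℕ → E → ℝ} (hW : ∀ j, Continuous (W j))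
    (hlim : ∀ x, Tendsto (fun j => W j x) atTop (𝓝 (w x)))
    (hP : ∀ j, Ineq2 μ F (W j)) : Ineq2 μ F w := by
  intro hw
  have I1 : Tendsto (fun j => ∫ x, Phi (W j x) ∂μ) atTop (𝓝 (∫ x, Phi (w x) ∂μ)) := by
    refine tendsto_integral_of_dominated_convergence (fun _ => 1)
      (fun j => (Phi_continuous.comp (hW j)).aestronglyMeasurable) (integrable_const _)
      (fun j => Eventually.of_forall fun x => ?_) (Eventually.of_forall fun x =>
        (Phi_continuous.tendsto _).comp (hlim x))
    rw [Real.norm_eq_abs, abs_of_pos (Phi_pos _)]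
    exact (Phi_lt_one _).le
  have I2 : Tendsto (fun j => ∫ x, F x (W j x) ∂μ) atTop (𝓝 (∫ x, F x (w x) ∂μ)) := by
    refine tendsto_integral_of_dominated_convergence G (fun j => hm _ (hW j)) hG
      (fun j => Eventually.of_forall fun x => ?_) (Eventually.of_forall fun x =>
        ((hF x).tendsto _).comp (hlim x))
    rw [Real.norm_eq_abs]
    exact hb x _
  refine ge_of_tendsto I2 ?_
  filter_upwards [I1.eventually_const_lt hw] with j hj
  exact hP j hj

/-- **Regularisation** of integral inequalities: from `Good` functions to all concave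
functions. -/
theorem regularise2 {F : E → ℝ → ℝ} {G : E → ℝ} (hG : Integrable G μ)
    (hF : ∀ x, Continuous (F x)) (hb : ∀ x s, |F x s| ≤ G x)
    (hm : ∀ w : E → ℝ, Continuous w → AEStronglyMeasurable (fun x => F x (w x)) μ)
    (H : ∀ w : E → ℝ, Good w → 1 / 2 ≤ ∫ x, Phi (w x) ∂μ → 0 ≤ ∫ x, F x (w x) ∂μ)
    {w : E → ℝ} (hw : ConcaveOn ℝ univ w) (h2 : 1 / 2 ≤ ∫ x, Phi (w x) ∂μ) :
    0 ≤ ∫ x, F x (w x) ∂μ := by
  have S0 : ∀ n : E → ℝ, Good n → Ineq2 μ F n := fun n hn h => H n hn h.le
  have lipc : ∀ (g : E → ℝ) (K : ℝ), 0 ≤ K → (∀ x y, |g x - g y| ≤ K * ‖x - y‖) →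
      Continuous g := by
    intro g K hK0 hK
    have : LipschitzWith ⟨K, hK0⟩ g := LipschitzWith.of_dist_le_mul fun x y => by
      rw [Real.dist_eq, dist_eq_norm]; exact hK x y
    exact this.continuous
  -- mollified Lipschitz concave functions
  have S1 : ∀ (g : E → ℝ) (K : ℝ), 0 ≤ K → (∀ x y, |g x - g y| ≤ K * ‖x - y‖) →
      ConcaveOn ℝ univ g → ∀ φ : ContDiffBump (0 : E),
        Ineq2 μ F (mol (φ.normed volume) g) := by
    intro g K hK0 hK hcv φ
    have hgc := lipc g K hK0 hK
    refine ineq2_closed hG hF hb hm (W := fun j x => mol (φ.normed volume) g x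
      - (1 / ((j : ℝ) + 1)) * ‖x‖ ^ 2) ?_ ?_ ?_
    · intro j
      have hc1 : Continuous (mol (φ.normed (volume : Measure E)) g) :=
        (mol_contDiff φ.contDiff_normed φ.hasCompactSupport_normed hgc).continuous
      exact hc1.sub (continuous_const.mul (continuous_norm.pow 2))
    · intro x
      have h1 : Tendsto (fun j : ℕ => 1 / ((j : ℝ) + 1)) atTop (𝓝 0) :=
        tendsto_one_div_add_atTop_nhds_zero_nat
      have h2 := (h1.mul_const (‖x‖ ^ 2)).const_sub (mol (φ.normed volume) g x)
      simpa using h2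
    · intro j
      exact S0 _ (good_mol φ.contDiff_normed φ.hasCompactSupport_normed φ.nonneg_normed hK hgc hcv
        (by positivity))
  -- Lipschitz concave functions
  have S2 : ∀ (g : E → ℝ) (K : ℝ), 0 ≤ K → (∀ x y, |g x - g y| ≤ K * ‖x - y‖) →
      ConcaveOn ℝ univ g → Ineq2 μ F g := by
    intro g K hK0 hK hcv
    have hgc := lipc g K hK0 hK
    have hpos : ∀ j : ℕ, (0 : ℝ) < 1 / ((j : ℝ) + 1) := fun j => by positivity
    set φ : ℕ → ContDiffBump (0 : E) := fun j =>
      ⟨1 / ((j : ℝ) + 1) / 2, 1 / ((j : ℝ) + 1), half_pos (hpos j), half_lt_self (hpos j)⟩ with hφ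
    refine ineq2_closed hG hF hb hm (W := fun j => mol ((φ j).normed volume) g) ?_ ?_ ?_
    · intro j
      exact (mol_contDiff (φ j).contDiff_normed (φ j).hasCompactSupport_normed hgc).continuous
    · intro x
      refine ContDiffBump.convolution_tendsto_right_of_continuous ?_ hgc x
      exact tendsto_one_div_add_atTop_nhds_zero_nat
    · intro j
      exact S1 g K hK0 hK hcv (φ j)
  -- concave functions bounded above
  have S3 : ∀ (w : E → ℝ) (N : ℝ), ConcaveOn ℝ univ w → (∀ x, w x ≤ N) → Ineq2 μ F w := by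
    intro w N hw hN
    have hu : PhiConcave (fun x => Phi (w x)) := phiConcave_Phi hw
    have hN' : ∀ x, Phi (w x) ≤ Phi N := fun x => Phi_strictMono.monotone (hN x)
    have hne : ∃ x : E, 0 < Phi (w x) := ⟨0, Phi_pos _⟩
    refine ineq2_closed hG hF hb hm (W := fun (j : ℕ) x => supc (fun x => Phi (w x)) (j : ℝ) x)
      ?_ ?_ ?_
    · intro j
      exact lipc _ (j : ℝ) (Nat.cast_nonneg j) (supc_lip hN' hne (Nat.cast_nonneg j))
    · intro x
      have h1 : x ∉ frontier {y : E | 0 < Phi (w y)} := by
        have : {y : E | 0 < Phi (w y)} = univ := by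
          ext y; simp [Phi_pos]
        rw [this, frontier_univ]
        exact notMem_empty x
      have h3 := supc_tendsto hu hN' hne h1
      have h4 := (Psi_continuousAt (Phi_pos (w x)) (Phi_lt_one (w x))).tendsto.comp h3
      have h5 : (Psi ∘ fun L : ℕ => Phi (supc (fun x => Phi (w x)) (L : ℝ) x))
          = fun L : ℕ => supc (fun x => Phi (w x)) (L : ℝ) x := by
        funext L
        simp [Psi_Phi]
      rw [h5, Psi_Phi] at h4
      exact h4
    · intro j
      exact S2 _ (j : ℝ) (Nat.cast_nonneg j) (supc_lip hN' hne (Nat.cast_nonneg j))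
        (supc_concave hu hN' hne (Nat.cast_nonneg j))
  -- strict hypothesis
  have hcont : ∀ w : E → ℝ, ConcaveOn ℝ univ w → Continuous w := by
    intro w hw
    have := hw.continuousOn_interior
    rwa [interior_univ, continuousOn_univ] at this
  have S4 : ∀ w : E → ℝ, ConcaveOn ℝ univ w → Ineq2 μ F w := by
    intro w hw
    refine ineq2_closed hG hF hb hm (W := fun (j : ℕ) x => min (w x) j) ?_ ?_ ?_
    · intro j
      exact (hcont w hw).min continuous_const
    · intro x
      refine tendsto_const_nhds.congr' ?_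
      filter_upwards [tendsto_natCast_atTop_atTop.eventually_ge_atTop (w x)] with j hj
      exact (min_eq_left hj).symm
    · intro j
      exact S3 _ (j : ℝ) (hw.inf (concaveOn_const _ convex_univ)) fun x => min_le_right _ _
  -- perturbation
  have hwc := hcont w hw
  have hPi : ∀ v : E → ℝ, Continuous v → Integrable (fun x => Phi (v x)) μ := by
    intro v hv
    refine (integrable_const (1 : ℝ)).mono' (Phi_continuous.comp hv).aestronglyMeasurable
      (Eventually.of_forall fun x => ?_)
    rw [Real.norm_eq_abs, abs_of_pos (Phi_pos _)]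
    exact (Phi_lt_one _).le
  have hμ : μ ≠ 0 := by
    rintro rfl
    simp at h2
    linarith
  have S5 : ∀ j : ℕ, 0 ≤ ∫ x, F x (w x + 1 / ((j : ℝ) + 1)) ∂μ := by
    intro j
    have hpos : (0 : ℝ) < 1 / ((j : ℝ) + 1) := by positivity
    refine S4 (fun x => w x + 1 / ((j : ℝ) + 1)) (hw.add (concaveOn_const _ convex_univ)) ?_
    have hwc' : Continuous fun x => w x + 1 / ((j : ℝ) + 1) := hwc.add continuous_const
    have h3 : 0 < ∫ x, (Phi (w x + 1 / ((j : ℝ) + 1)) - Phi (w x)) ∂μ := by
      refine (integral_pos_iff_support_of_nonneg (fun x => ?_) ((hPi _ hwc').sub (hPi _ hwc))).mpr ?_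
      · exact sub_nonneg.mpr (Phi_strictMono.monotone (by linarith))
      · have h5 : Function.support ((fun x => Phi (w x + 1 / ((j : ℝ) + 1))) - fun x => Phi (w x))
            = univ := by
          ext x
          simp only [Function.mem_support, mem_univ, iff_true]
          exact (sub_pos.mpr (Phi_strictMono (by linarith))).ne'
        rw [h5]
        exact Measure.measure_univ_pos.mpr hμ
    rw [integral_sub (hPi _ hwc') (hPi _ hwc)] at h3
    linarith
  have I2 : Tendsto (fun j : ℕ => ∫ x, F x (w x + 1 / ((j : ℝ) + 1)) ∂μ) atTop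
      (𝓝 (∫ x, F x (w x) ∂μ)) := by
    refine tendsto_integral_of_dominated_convergence G
      (fun j => hm _ (hwc.add continuous_const)) hG
      (fun j => Eventually.of_forall fun x => ?_) (Eventually.of_forall fun x => ?_)
    · rw [Real.norm_eq_abs]
      exact hb x _
    · refine ((hF x).tendsto _).comp ?_
      have h1 : Tendsto (fun j : ℕ => 1 / ((j : ℝ) + 1)) atTop (𝓝 0) :=
        tendsto_one_div_add_atTop_nhds_zero_nat
      simpa using h1.const_add (w x)
  exact ge_of_tendsto I2 (Eventually.of_forall S5)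

end Vale.Agent.P262.H847.Reg
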