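import Vale.Agent.P262.H847.Heat

/-!
# Ehrhard's inequality in dimension one for smooth bounded exponents
-/

namespace Vale.Agent.P262.H847

open MeasureTheory ProbabilityTheory Set Filter Topology

/-- a function bounded by `M` with two continuous derivatives bounded by `D` -/
structure Smo (M D : ℝ) (u u' u'' : ℝ → ℝ) : Prop where
  d1 : ∀ x, HasDerivAt u (u' x) x
  d2 : ∀ x, HasDerivAt u' (u'' x) x
  c2 : Continuous u''
  b0 : ∀ x, |u x| ≤ M
  b1 : ∀ x, |u' x| ≤ D
  b2 : ∀ x, |u'' x| ≤ D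

variable {M D : ℝ} {u u' u'' : ℝ → ℝ}

lemma Smo.c0 (h : Smo M D u u' u'') : Continuous u :=
  continuous_iff_continuousAt.mpr (fun x => (h.d1 x).continuousAt)

lemma Smo.c1 (h : Smo M D u u' u'') : Continuous u' :=
  continuous_iff_continuousAt.mpr (fun x => (h.d2 x).continuousAt)

lemma Smo.M0 (h : Smo M D u u' u'') : 0 ≤ M := le_trans (abs_nonneg _) (h.b0 0)

lemma Smo.D0 (h : Smo M D u u' u'') : 0 ≤ D := le_trans (abs_nonneg _) (h.b1 0)

lemma abs_phi_mul_le (t r : ℝ) : |phi t * r| ≤ |r| := by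
  rw [abs_mul, abs_of_pos (phi_pos t)]
  have := phi_le_one t
  nlinarith [abs_nonneg r]

lemma Smo.nice (h : Smo M D u u' u'') :
    Nice 1 (D + M * D ^ 2) (fun x => Phi (u x)) (fun x => phi (u x) * u' x)
      (fun x => phi (u x) * (u'' x - u x * u' x ^ 2)) := by
  have hM := h.M0
  have hD := h.D0
  refine ⟨?_, ?_, ?_, ?_, ?_, ?_⟩
  · intro x
    exact (hasDerivAt_Phi (u x)).comp x (h.d1 x)
  · intro x
    have h1 := (hasDerivAt_phi (u x)).comp x (h.d1 x)
    exact (h1.mul (h.d2 x)).congr_deriv (by simp only [Function.comp_def]; ring)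
  · exact (continuous_phi.comp h.c0).mul (h.c2.sub (h.c0.mul (h.c1.pow 2)))
  · intro x
    rw [abs_of_nonneg (Phi_nonneg _)]; exact Phi_le_one _
  · intro x
    have h1 := abs_phi_mul_le (u x) (u' x)
    have h2 := h.b1 x
    have : 0 ≤ M * D ^ 2 := by positivity
    linarith
  · intro x
    have h1 := abs_phi_mul_le (u x) (u'' x - u x * u' x ^ 2)
    have h2 : |u'' x - u x * u' x ^ 2| ≤ |u'' x| + |u x * u' x ^ 2| := abs_sub _ _
    have h3 : |u x * u' x ^ 2| ≤ M * D ^ 2 := by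
      rw [abs_mul, abs_pow]
      exact mul_le_mul (h.b0 x) (pow_le_pow_left₀ (abs_nonneg _) (h.b1 x) 2) (by positivity) hM
    have h4 := h.b2 x
    linarith

lemma phi_anti {t M : ℝ} (h : |t| ≤ M) : phi M ≤ phi t := by
  rw [phi_eq, phi_eq]
  apply mul_le_mul_of_nonneg_left _ (by positivity)
  apply Real.exp_le_exp.mpr
  have : t ^ 2 ≤ M ^ 2 := by
    rw [← sq_abs t]
    exact pow_le_pow_left₀ (abs_nonneg _) h 2
  linarith

lemma Smo.heat_mem (h : Smo M D u u' u'') (s x : ℝ) :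
    heat (fun y => Phi (u y)) s x ∈ Icc (Phi (-M)) (Phi M) := by
  have hi : Integrable (fun z => Phi (u (x + s * z))) g1 :=
    integrable_bdd (B := 1) ((continuous_Phi.comp h.c0).comp (by fun_prop))
      (fun z => by rw [abs_of_nonneg (Phi_nonneg _)]; exact Phi_le_one _)
  constructor
  · have h1 : ∫ _z : ℝ, Phi (-M) ∂g1 ≤ heat (fun y => Phi (u y)) s x := by
      apply integral_mono (integrable_const _) hi
      intro z
      exact strictMono_Phi.monotone (abs_le.mp (h.b0 _)).1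
    simpa using h1
  · have h1 : heat (fun y => Phi (u y)) s x ≤ ∫ _z : ℝ, Phi M ∂g1 := by
      apply integral_mono hi (integrable_const _)
      intro z
      exact strictMono_Phi.monotone (abs_le.mp (h.b0 _)).2
    simpa using h1

lemma Smo.heat_Ioo (h : Smo M D u u' u'') (s x : ℝ) :
    heat (fun y => Phi (u y)) s x ∈ Ioo (0:ℝ) 1 :=
  ⟨lt_of_lt_of_le (Phi_pos _) (h.heat_mem s x).1, lt_of_le_of_lt (h.heat_mem s x).2 (Phi_lt_one _)⟩

/-- the evolution of the exponent -/
noncomputable def evo (u : ℝ → ℝ) (s x : ℝ) : ℝ := Psi (heat (fun y => Phi (u y)) s x)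

lemma Smo.abs_evo_le (h : Smo M D u u' u'') (s x : ℝ) : |evo u s x| ≤ M := by
  have h1 := h.heat_mem s x
  have h2 := h.heat_Ioo s x
  rw [abs_le]
  exact ⟨(le_Psi_iff h2.1 h2.2 _).mpr h1.1, (Psi_le_iff h2.1 h2.2 _).mpr h1.2⟩

lemma Smo.sol (h : Smo M D u u' u'') :
    Sol M ((D + M * D ^ 2) / phi M) (evo u)
      (fun s x => heat (fun x => phi (u x) * u' x) s x * (phi (evo u s x))⁻¹)
      (fun s x => heat (fun x => phi (u x) * (u'' x - u x * u' x ^ 2)) s x * (phi (evo u s x))⁻¹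
        + evo u s x * (heat (fun x => phi (u x) * u' x) s x * (phi (evo u s x))⁻¹) ^ 2) := by
  have hn := h.nice
  have dx : ∀ s x, HasDerivAt (fun y => evo u s y)
      (heat (fun x => phi (u x) * u' x) s x * (phi (evo u s x))⁻¹) x := by
    intro s x
    have h1 := hasDerivAt_heat_x hn.d1 hn.c1 hn.b0 hn.b1 s x
    have h2 := h.heat_Ioo s x
    have h3 := (hasDerivAt_Psi h2.1 h2.2).comp x h1
    exact h3.congr_deriv (by unfold evo; ring)
  refine ⟨?_, h.abs_evo_le, dx, ?_, ?_, ?_⟩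
  · have h1 := continuous_heat hn.c0 hn.b0
    exact continuousOn_Psi.comp_continuous h1 (fun p => h.heat_Ioo p.1 p.2)
  · intro s x
    have h1 := hasDerivAt_heat_x hn.d2 hn.c2 hn.b1 hn.b2 s x
    have h2 := ((hasDerivAt_phi (evo u s x)).comp x (dx s x)).inv (phi_pos _).ne'
    refine (h1.mul h2).congr_deriv ?_
    simp only [Function.comp_def, Pi.inv_apply]
    have hp := (phi_pos (evo u s x)).ne'
    field_simp
  · intro s x
    have h1 := hasDerivAt_heat_s hn s x
    have h2 := h.heat_Ioo s x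
    have h3 := (hasDerivAt_Psi h2.1 h2.2).comp s h1
    refine h3.congr_deriv ?_
    unfold evo
    ring
  · intro s x
    have h1 := abs_heat_le hn.b1 s x
    have h2 := phi_anti (h.abs_evo_le s x)
    rw [abs_mul, abs_inv, abs_of_pos (phi_pos _), div_eq_mul_inv]
    apply mul_le_mul h1 _ (inv_nonneg.mpr (phi_pos _).le) (le_trans (abs_nonneg _) h1)
    exact inv_anti₀ (phi_pos _) h2

lemma evo_zero (u : ℝ → ℝ) (x : ℝ) : evo u 0 x = u x := by
  unfold evo heat
  simp [Psi_Phi]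

theorem ehrhard_smooth {a b : ℝ} (ha : 0 < a) (hb : 0 < b) (hab : a + b = 1)
    {v v' v'' w w' w'' : ℝ → ℝ} (hu : Smo M D u u' u'') (hv : Smo M D v v' v'')
    (hw : Smo M D w w' w'') (h : ∀ x y, a * u x + b * v y ≤ w (a * x + b * y)) :
    a * Psi (∫ z, Phi (u z) ∂g1) + b * Psi (∫ z, Phi (v z) ∂g1) ≤ Psi (∫ z, Phi (w z) ∂g1) := by
  have key := max_principle ha hb hab hu.sol hv.sol hw.sol
    (by intro x y; rw [evo_zero, evo_zero, evo_zero]; exact h x y)
    (s := 1) ⟨zero_le_one, le_rfl⟩ 0 0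
  have e : ∀ r : ℝ → ℝ, evo r 1 0 = Psi (∫ z, Phi (r z) ∂g1) := by
    intro r; unfold evo heat; simp
  simpa [e] using key

end Vale.Agent.P262.H847
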